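import Vale.Agent.P366.H222.N.X0d

/-! Assembly, all dimensions, part 1: continuity on the sphere, positivity, the chain of
inequalities. -/

open MeasureTheory Metric Filter Topology Set
open scoped ContDiff ENNReal

noncomputable section
namespace Vale.Agent.P366.KSN

open Vale.Agent.P366 (pd E)
open Vale.Agent.P366.H353.N
open Vale.Agent.P366.Kerr (NullCone IsSlice Region Psi pt sp nul ksG indG indK DECat)

variable {n : ℕ} {C : NullCone n} {lam f : E n → ℝ} {V : E (n + 1) → ℝ} {D : Stmt.Exterior n}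
  {x y z : E n} {s t : ℝ}

/-! ### continuity -/

theorem Y_comp (C : NullCone n) {r : E n → ℝ} (hr : Sm r) (hz : z ≠ 0) :
    ContDiffAt ℝ ∞ (fun z => Y C.H z (r z)) z := by
  have h : ContDiffAt ℝ ∞ (fun z : E n => (WithLp.toLp 2 fun i => pd i C.H z + r z * z i : E n))
      z := by
    rw [contDiffAt_piLp]
    intro i
    exact (((smH C).pd i) z hz).add ((hr z hz).mul (Sm.coord i z hz))
  exact h

theorem pt_comp {τ : E n → ℝ} {Z : E n → E n} (hτ : ContDiffAt ℝ ∞ τ z)
    (hZ : ContDiffAt ℝ ∞ Z z) : ContDiffAt ℝ ∞ (fun z => pt (τ z) (Z z)) z := by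
  have h : ContDiffAt ℝ ∞ (fun z : E n => (WithLp.toLp 2 (Fin.cons (τ z) fun i => Z z i) : E (n + 1)))
      z := by
    rw [contDiffAt_piLp]
    intro a
    refine Fin.cases ?_ (fun i => ?_) a
    · exact hτ
    · exact (contDiff_piLp_apply (p := 2) (i := i)).contDiffAt.comp z hZ
  exact h

theorem V_comp_cont (hV : ∀ p ∈ Region lam f D, ContDiffAt ℝ ∞ V p) {r τ : E n → ℝ} (hr : Sm r)
    (hτ : Sm τ) (h : ∀ x : E n, ‖x‖ = 1 → pt (τ x) (Y C.H x (r x)) ∈ Region lam f D) :
    ContinuousOn (fun x => V (pt (τ x) (Y C.H x (r x)))) (sphere (0 : E n) 1) := by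
  intro x hx
  have hx1 : ‖x‖ = 1 := by simpa using hx
  have hx0 := ne_zero_of_one hx1
  exact (ContinuousAt.comp (f := fun x => pt (τ x) (Y C.H x (r x))) (x := x)
    (hV _ (h x hx1)).continuousAt
    (pt_comp (hτ x hx0) (Y_comp C hr hx0)).continuousAt).continuousWithinAt

theorem Sm.prx (i j : Fin n) : Sm fun x : E n => pr x i j :=
  (Sm.const (kd i j)).sub ((Sm.coord i).mul (Sm.coord j))

theorem Ws_sm (C : NullCone n) {r : E n → ℝ} (hr : Sm r) (i j : Fin n) :
    Sm fun x => Ws C.H (r x) x i j :=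
  ((smH C).hs i j).add (hr.mul (Sm.prx i j))

theorem Ms_sm (C : NullCone n) {r : E n → ℝ} (hr : Sm r) (i j : Fin n) :
    Sm fun x => Ms C.H (r x) x i j :=
  (Ws_sm C hr i j).add ((Sm.coord i).mul (Sm.coord j))

theorem det_sm {m : ℕ} {A : E n → Matrix (Fin m) (Fin m) ℝ} (hA : ∀ i j, Sm fun x => A x i j) :
    Sm fun x => (A x).det := fun x hx =>
  Vale.Agent.P366.Bridge.contDiffAt_det (A := A) fun i j => hA i j x hx

theorem adj_sm {A : E n → Matrix (Fin n) (Fin n) ℝ} (hA : ∀ i j, Sm fun x => A x i j)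
    (i j : Fin n) : Sm fun x => (A x).adjugate i j := by
  have h2 : (fun y => (A y).adjugate i j) =
      fun y => ((A y).updateRow j (Pi.single i 1)).det := by
    funext y
    rw [Matrix.adjugate_apply]
  rw [h2]
  refine det_sm fun a b => ?_
  by_cases ha : a = j
  · subst ha
    simp only [Matrix.updateRow_self]
    exact Sm.const _
  · simp only [Matrix.updateRow_ne ha]
    exact hA a b

theorem dts_sm (C : NullCone n) {r : E n → ℝ} (hr : Sm r) : Sm fun x => dts C.H (r x) x :=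
  det_sm fun i j => Ms_sm C hr i j

theorem sg_sm (C : NullCone n) {r : E n → ℝ} (hr : Sm r) : Sm fun x => sg C.H (r x) x := by
  unfold sg Matrix.trace
  exact (Sm.sum _ fun i => adj_sm (fun a b => Ms_sm C hr a b) i i).sub (dts_sm C hr)

theorem sg_cont (C : NullCone n) {r : E n → ℝ} (hr : Sm r) :
    ContinuousOn (fun x => sg C.H (r x) x) (sphere (0 : E n) 1) := (sg_sm C hr).contOn

theorem dts_cont (C : NullCone n) {r : E n → ℝ} (hr : Sm r) :
    ContinuousOn (fun x => dts C.H (r x) x) (sphere (0 : E n) 1) := (dts_sm C hr).contOn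

/-- continuity along the boundary of functions of `y` -/
theorem comp_YU_cont (hS : IsSlice C lam V f D) {g : E n → ℝ}
    (hg : ∀ y, 0 ≤ D.F y → ContinuousAt g y) :
    ContinuousOn (fun x => g (Y C.H x (C.U x))) (sphere (0 : E n) 1) := by
  intro x hx
  have hx1 : ‖x‖ = 1 := by simpa using hx
  have hx0 := ne_zero_of_one hx1
  exact (ContinuousAt.comp (f := fun x => Y C.H x (C.U x)) (x := x)
    (hg _ (mem_Y hS hx1 le_rfl)) (Y_comp C (smU C) hx0).continuousAt).continuousWithinAt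

theorem dL_contAt (hS : IsSlice C lam V f D) (hy : 0 ≤ D.F y) : ContinuousAt (dL lam f) y := by
  unfold dL
  exact tendsto_finsetSum _ fun i _ =>
    (pd_contAt (hS.smL y hy) i).mul (pd_contAt (hS.smf y hy) i)

theorem bv_contAt (hS : IsSlice C lam V f D) (hy : 0 ≤ D.F y) (i : Fin n) :
    ContinuousAt (bv lam f i) y := by
  unfold bv
  refine ContinuousAt.div ?_ (continuousAt_const.add (dL_contAt hS hy)) (dL_pos hS hy).ne'
  exact ((pd_contAt (hS.smf y hy) i).sub
    ((dL_contAt hS hy).mul (pd_contAt (hS.smL y hy) i))).neg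

theorem thl_contAt (hS : IsSlice C lam V f D) (hy : 0 ≤ D.F y) : ContinuousAt (thl lam f) y := by
  have hl := fun i => pd_contAt (hS.smL y hy) i
  have hf := fun i => pd_contAt (hS.smf y hy) i
  have hh := fun i j => hs_contAt (hS.smf y hy) i j
  have hb := fun i => bv_contAt hS hy i
  have hd := dL_contAt hS hy
  have hne := (dL_pos hS hy).ne'
  have hlap : ContinuousAt (lap lam) y :=
    tendsto_finsetSum _ fun i _ => hs_contAt (hS.smL y hy) i i
  unfold thl
  refine ContinuousAt.add ?_ (ContinuousAt.mul ?_ (ContinuousAt.add (ContinuousAt.add ?_ ?_) ?_))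
  · exact (hlap.mul (continuousAt_const.sub (tendsto_finsetSum _ fun i _ => (hf i).pow 2))).div
      ((continuousAt_const.add hd).pow 2) (pow_ne_zero 2 hne)
  · exact continuousAt_const.div (continuousAt_const.add hd) hne
  · refine tendsto_finsetSum _ fun i _ => tendsto_finsetSum _ fun j _ => (hh i j).mul ?_
    unfold pr
    exact continuousAt_const.sub ((hl i).mul (hl j))
  · exact continuousAt_const.mul (tendsto_finsetSum _ fun i _ => tendsto_finsetSum _ fun j _ =>
      ((hh i j).mul (hb i)).mul (hl j))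
  · exact (tendsto_finsetSum _ fun i _ => (hb i).pow 2).mul
      (tendsto_finsetSum _ fun i _ => tendsto_finsetSum _ fun j _ =>
        ((hh i j).mul (hl i)).mul (hl j))

/-- an upper bound of `U` on the sphere -/
theorem exists_U_le (C : NullCone n) : ∃ L0 : ℝ, ∀ x : E n, ‖x‖ = 1 → C.U x ≤ L0 := by
  obtain ⟨L0, hL0⟩ := (isCompact_sphere (0 : E n) 1).bddAbove_image (smU C).contOn
  exact ⟨L0, fun x hx => hL0 ⟨x, by simpa using hx, rfl⟩⟩

/-! ### positivity of `sg` -/

/-- the diagonal entries of `M⁻¹ - x xᵀ` -/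
theorem inv_diag_nonneg (C : NullCone n) (hx : ‖x‖ = 1) (hs : C.U x ≤ s) (i : Fin n) :
    0 ≤ (Ms C.H s x)⁻¹ i i - x i * x i ∧
      (x i * x i ≠ 1 → 0 < (Ms C.H s x)⁻¹ i i - x i * x i) := by
  have hP := (Ms_posDef C hx hs).inv
  have hd : IsUnit (Ms C.H s x).det := (dts_pos C hx hs).ne'.isUnit
  have hMx : (Ms C.H s x).mulVec x = x := by
    funext j
    exact Ms_mul_x C hx j
  have hMx' : (Ms C.H s x)⁻¹.mulVec x = x := by
    conv_lhs => rw [← hMx]
    rw [Matrix.mulVec_mulVec, Matrix.nonsing_inv_mul _ hd, Matrix.one_mulVec]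
  have hsym : ((Ms C.H s x)⁻¹).transpose = (Ms C.H s x)⁻¹ := by
    rw [Matrix.transpose_nonsing_inv, Ms_symm C hx]
  have hxM : Matrix.vecMul x (Ms C.H s x)⁻¹ = x := by
    rw [← Matrix.mulVec_transpose, hsym, hMx']
  -- `u = e_i - x_i x`
  set e : Fin n → ℝ := Pi.single i 1 with he
  set u : Fin n → ℝ := e - x i • (x : Fin n → ℝ) with hu
  have hxx : (x : Fin n → ℝ) ⬝ᵥ x = 1 := sum_xx hx
  have hxe : (x : Fin n → ℝ) ⬝ᵥ e = x i := by rw [he, dotProduct_single_one]
  have hex : e ⬝ᵥ (x : Fin n → ℝ) = x i := by rw [dotProduct_comm, hxe]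
  have hee : e ⬝ᵥ (Ms C.H s x)⁻¹.mulVec e = (Ms C.H s x)⁻¹ i i := by
    rw [he, Matrix.mulVec_single_one, single_one_dotProduct]
    rfl
  have hxMe : (x : Fin n → ℝ) ⬝ᵥ (Ms C.H s x)⁻¹.mulVec e = x i := by
    rw [Matrix.dotProduct_mulVec, hxM, hxe]
  have key : u ⬝ᵥ (Ms C.H s x)⁻¹.mulVec u = (Ms C.H s x)⁻¹ i i - x i * x i := by
    rw [hu, Matrix.mulVec_sub, Matrix.mulVec_smul, hMx']
    simp only [sub_dotProduct, dotProduct_sub, smul_dotProduct, dotProduct_smul, hee, hxMe, hex,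
      hxx, smul_eq_mul]
    ring
  rw [← key]
  constructor
  · have := hP.posSemidef.dotProduct_mulVec_nonneg u
    simpa using this
  · intro hne
    have hu0 : u ≠ 0 := by
      intro h
      apply hne
      have h1 : u i = 0 := congrFun h i
      rw [hu, he] at h1
      simp only [Pi.sub_apply, Pi.single_eq_same, Pi.smul_apply, smul_eq_mul] at h1
      linarith
    have := hP.dotProduct_mulVec_pos hu0
    simpa using this

theorem sg_pos_of (C : NullCone n) (hn : 2 ≤ n) (hx : ‖x‖ = 1) (hs : C.U x ≤ s) :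
    0 < sg C.H s x := by
  rw [sg_eq C hx hs]
  refine mul_pos (dts_pos C hx hs) ?_
  have e : (Ms C.H s x)⁻¹.trace - 1 = ∑ i, ((Ms C.H s x)⁻¹ i i - x i * x i) := by
    rw [Finset.sum_sub_distrib, sum_xx hx]
    rfl
  rw [e]
  have hex : ∃ i, x i * x i ≠ 1 := by
    by_contra h
    push Not at h
    have h1 := sum_xx hx
    simp only [h] at h1
    rw [Finset.sum_const, Finset.card_univ, Fintype.card_fin, nsmul_eq_mul, mul_one] at h1
    have h2 : n = 1 := by exact_mod_cast h1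
    omega
  obtain ⟨i, hi⟩ := hex
  exact Finset.sum_pos' (fun j _ => (inv_diag_nonneg C hx hs j).1)
    ⟨i, Finset.mem_univ i, (inv_diag_nonneg C hx hs i).2 hi⟩

theorem sg_pos [hn : Fact (3 ≤ n)] (C : NullCone n) (hx : ‖x‖ = 1) (hs : C.U x ≤ s) :
    0 < sg C.H s x := sg_pos_of C (by have := hn.out; omega) hx hs

theorem lap_lam_pos (hn : 2 ≤ n) (hS : IsSlice C lam V f D) (hx : ‖x‖ = 1) (hs : C.U x ≤ s) :
    0 < lap lam (Y C.H x s) := by
  have h1 := sg_pos_of C hn hx hs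
  rw [← lap_lam_Y hS hx hs] at h1
  exact (pos_iff_pos_of_mul_pos h1).2 (dts_pos C hx hs)

/-! ### the chain -/

theorem chain (hS : IsSlice C lam V f D)
    (hV : ∀ p ∈ Region lam f D, ContDiffAt ℝ ∞ V p)
    (h2 : ∀ x : E n, ‖x‖ = 1 → thl lam f (Y C.H x (C.U x)) ≤
      V (pt (- C.U x) (Y C.H x (C.U x))) * lap lam (Y C.H x (C.U x)))
    {Φ : ℝ} (h3 : Φ ≤ SI (fun x => thl lam f (Y C.H x (C.U x)) * dts C.H (C.U x) x))
    (h4s : ∀ x : E n, ‖x‖ = 1 → ∀ s s' : ℝ, C.U x ≤ s → s ≤ s' →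
      V (pt (-s) (Y C.H x s)) * sg C.H s x ≤ V (pt (-s') (Y C.H x s')) * sg C.H s' x)
    (h4v : ∃ L0 : ℝ, ∀ L, L0 ≤ L → SI (fun x => V (pt (-L) (Y C.H x L)) * sg C.H L x) ≤
      SI (fun x => V (pt 0 (Y C.H x L)) * sg C.H L x))
    {M : ℝ}
    (h5 : Tendsto (fun L => SI (fun x => V (pt 0 (Y C.H x L)) * sg C.H L x)) atTop (𝓝 M)) :
    Φ ≤ M := by
  obtain ⟨L0, hL0⟩ := h4v
  obtain ⟨L1, hL1⟩ := exists_U_le C
  refine ge_of_tendsto h5 ?_
  filter_upwards [eventually_ge_atTop (max L0 L1)] with L hL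
  have hLL0 : L0 ≤ L := (le_max_left _ _).trans hL
  have hLL1 : L1 ≤ L := (le_max_right _ _).trans hL
  refine h3.trans (le_trans ?_ (hL0 L hLL0))
  have hnegU : Sm fun x => - C.U x := (smU C).neg
  have hcV2 : ContinuousOn (fun x => V (pt (-L) (Y C.H x L))) (sphere (0 : E n) 1) :=
    V_comp_cont (C := C) hV (Sm.const L) (Sm.const (-L)) fun x hx => by
      have hU : C.U x ≤ L := (hL1 x hx).trans hLL1
      refine mem_region' hS hx hU le_rfl ?_
      have := f_add_nonneg_Y hS hx hU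
      linarith
  have hc1 : ContinuousOn (fun x => thl lam f (Y C.H x (C.U x)) * dts C.H (C.U x) x)
      (sphere (0 : E n) 1) :=
    (comp_YU_cont hS fun y hy => thl_contAt hS hy).mul (dts_cont C (smU C))
  have hc2 : ContinuousOn (fun x => V (pt (-L) (Y C.H x L)) * sg C.H L x)
      (sphere (0 : E n) 1) := hcV2.mul (sg_cont C (Sm.const L))
  refine SI_mono hc1 hc2 fun x hx => ?_
  refine le_trans ?_ (h4s x hx (C.U x) L le_rfl ((hL1 x hx).trans hLL1))
  have hdt := dts_pos C hx (le_refl (C.U x))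
  rw [← lap_lam_Y hS hx le_rfl, ← mul_assoc]
  exact mul_le_mul_of_nonneg_right (h2 x hx) hdt.le

end Vale.Agent.P366.KSN
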