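import Vale.Agent.P366.H222.N.X0a

/-! Geometry of the rays, all dimensions, part 2. -/

open MeasureTheory Metric Filter Topology Set
open scoped ContDiff ENNReal

noncomputable section
namespace Vale.Agent.P366.KSN

open Vale.Agent.P366 (pd E)
open Vale.Agent.P366.H353.N
open Vale.Agent.P366.Kerr (NullCone IsSlice Region Psi pt sp nul ksG indG indK DECat)

variable {n : ℕ} {C : NullCone n} {lam f : E n → ℝ} {V : E (n + 1) → ℝ} {D : Stmt.Exterior n}
  {x y z : E n} {s t : ℝ}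

/-! ### the map `Psi` -/

theorem posU' (C : NullCone n) (hx : ‖x‖ = 1) : 0 < C.U x := C.pos x (ne_zero_of_one hx)

theorem Psi_apply (C : NullCone n) (hz : z ≠ 0) (i : Fin n) : Psi C.H z i = pd i C.H z + z i := by
  have h : Psi C.H z i = Stmt.pd i C.H z + z i := rfl
  rw [h, Vale.Agent.P366.Bridge.pd_eq ((smH C).diff hz) i]

theorem Y_apply (H : E n → ℝ) (x : E n) (s : ℝ) (i : Fin n) : Y H x s i = pd i H x + s * x i := rfl

theorem Y_eq (C : NullCone n) (hx : ‖x‖ = 1) (hs : 0 < s) : Psi C.H (s • x) = Y C.H x s := by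
  have hx0 := ne_zero_of_one hx
  ext i
  rw [Psi_apply C (smul_ne_zero hs.ne' hx0), Y_apply,
    ((homH C).pd (smH C) i) x hx0 s hs]
  simp

theorem U_smul (C : NullCone n) (hx : x ≠ 0) (hs : 0 < s) : C.U (s • x) = C.U x :=
  (C.hom x hx s hs).2

theorem norm_smul_unit (hx : ‖x‖ = 1) (hs : 0 ≤ s) : ‖s • x‖ = s := by
  rw [norm_smul, hx, Real.norm_eq_abs, abs_of_nonneg hs, mul_one]

/-- every point off the origin is `s • x` with a unit vector `x` -/
theorem exists_unit (hz : z ≠ 0) : ∃ x : E n, ‖x‖ = 1 ∧ z = ‖z‖ • x := by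
  have h : ‖z‖ ≠ 0 := norm_ne_zero_iff.2 hz
  refine ⟨‖z‖⁻¹ • z, ?_, ?_⟩
  · rw [norm_smul, norm_inv, norm_norm, inv_mul_cancel₀ h]
  · rw [smul_smul, mul_inv_cancel₀ h, one_smul]

/-- the points of the exterior -/
theorem mem_iff (hS : IsSlice C lam V f D) :
    0 ≤ D.F y ↔ ∃ x s, ‖x‖ = 1 ∧ C.U x ≤ s ∧ Y C.H x s = y := by
  rw [hS.dom y]
  constructor
  · rintro ⟨z, hz, hU, hy⟩
    obtain ⟨x, hx, hzx⟩ := exists_unit hz
    have hn : 0 < ‖z‖ := norm_pos_iff.2 hz
    have hUx : C.U z = C.U x := by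
      conv_lhs => rw [hzx]
      exact U_smul C (ne_zero_of_one hx) hn
    refine ⟨x, ‖z‖, hx, hUx ▸ hU, ?_⟩
    rw [← Y_eq C hx hn, ← hzx, hy]
  · rintro ⟨x, s, hx, hU, hy⟩
    have hs : 0 < s := (posU' C hx).trans_le hU
    have hx0 := ne_zero_of_one hx
    refine ⟨s • x, smul_ne_zero hs.ne' hx0, ?_, ?_⟩
    · rw [U_smul C hx0 hs, norm_smul_unit hx hs.le]
      exact hU
    · rw [Y_eq C hx hs, hy]

theorem Y_inj (C : NullCone n) {x' : E n} {s' : ℝ} (hx : ‖x‖ = 1) (hs : C.U x ≤ s) (hx' : ‖x'‖ = 1)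
    (hs' : C.U x' ≤ s') (h : Y C.H x s = Y C.H x' s') : x = x' ∧ s = s' := by
  have h0 : 0 < s := (posU' C hx).trans_le hs
  have h0' : 0 < s' := (posU' C hx').trans_le hs'
  have hx0 := ne_zero_of_one hx
  have hx0' := ne_zero_of_one hx'
  rw [← Y_eq C hx h0, ← Y_eq C hx' h0'] at h
  have := C.inj (x₁ := s • x) (x₂ := s' • x')
    ⟨smul_ne_zero h0.ne' hx0, by rw [U_smul C hx0 h0, norm_smul_unit hx h0.le]; exact hs⟩
    ⟨smul_ne_zero h0'.ne' hx0', by rw [U_smul C hx0' h0', norm_smul_unit hx' h0'.le]; exact hs'⟩ h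
  have hn : s = s' := by
    have := congrArg norm this
    rwa [norm_smul_unit hx h0.le, norm_smul_unit hx' h0'.le] at this
  refine ⟨?_, hn⟩
  rw [hn] at this
  exact smul_right_injective _ h0'.ne' this

theorem lam_Y (hS : IsSlice C lam V f D) (hx : ‖x‖ = 1) (hs : C.U x ≤ s) :
    lam (Y C.H x s) = s := by
  have h0 : 0 < s := (posU' C hx).trans_le hs
  have hx0 := ne_zero_of_one hx
  rw [← Y_eq C hx h0, hS.eqL (s • x) (smul_ne_zero h0.ne' hx0)
    (by rw [U_smul C hx0 h0, norm_smul_unit hx h0.le]; exact hs), norm_smul_unit hx h0.le]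

theorem mem_Y (hS : IsSlice C lam V f D) (hx : ‖x‖ = 1) (hs : C.U x ≤ s) :
    0 ≤ D.F (Y C.H x s) := (mem_iff hS).2 ⟨x, s, hx, hs, rfl⟩

/-! ### the derivative of `Psi` -/

theorem Psi_contDiffAt (C : NullCone n) (hz : z ≠ 0) : ContDiffAt ℝ ∞ (Psi C.H) z := by
  have h : ContDiffAt ℝ ∞ (fun z : E n => (WithLp.toLp 2 fun i => pd i C.H z + z i : E n)) z := by
    rw [contDiffAt_piLp]
    intro i
    exact (((smH C).pd i) z hz).add (Sm.coord i z hz)
  refine h.congr_of_eventuallyEq ?_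
  filter_upwards [nhds_ne hz] with w hw
  ext i
  exact Psi_apply C hw i

theorem fderiv_Psi (C : NullCone n) (hz : z ≠ 0) (v : E n) (i : Fin n) :
    fderiv ℝ (Psi C.H) z v i = (∑ j, H353.N.hs C.H i j z * v j) + v i := by
  have hd := ((Psi_contDiffAt C hz).differentiableAt (by simp)).hasFDerivAt
  have h1 : HasFDerivAt (fun w : E n => Psi C.H w i)
      ((EuclideanSpace.proj i : E n →L[ℝ] ℝ).comp (fderiv ℝ (Psi C.H) z)) z :=
    (EuclideanSpace.proj i : E n →L[ℝ] ℝ).hasFDerivAt.comp z hd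
  have h2 : HasFDerivAt (fun w : E n => pd i C.H w + w i)
      (fderiv ℝ (pd i C.H) z + (EuclideanSpace.proj i : E n →L[ℝ] ℝ)) z :=
    (((smH C).pd i).diff hz).hasFDerivAt.add (EuclideanSpace.proj i : E n →L[ℝ] ℝ).hasFDerivAt
  have h3 : (fun w : E n => Psi C.H w i) =ᶠ[𝓝 z] fun w : E n => pd i C.H w + w i := by
    filter_upwards [nhds_ne hz] with w hw using Psi_apply C hw i
  have h4 := (h2.congr_of_eventuallyEq h3).unique h1
  have h5 := congrArg (fun L : E n →L[ℝ] ℝ => L v) h4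
  have h6 : fderiv ℝ (pd i C.H) z v + v i = fderiv ℝ (Psi C.H) z v i := h5
  rw [← h6, Vale.Agent.P366.fderiv_eq_sum_pd]
  congr 1
  refine Finset.sum_congr rfl fun j _ => ?_
  rw [mul_comm, hs_symm (smH C) hz i j]
  rfl

/-- the Hessian of the support function along a ray -/
theorem hs_H_smul (C : NullCone n) (hx : ‖x‖ = 1) (hs : 0 < s) (i j : Fin n) :
    H353.N.hs C.H i j (s • x) = s⁻¹ * H353.N.hs C.H i j x := by
  rw [((homH C).hs (smH C) i j) x (ne_zero_of_one hx) s hs]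
  norm_num

/-- `DΨ v = s⁻¹ (W v) + ⟨x, v⟩ x` at `s x` -/
theorem fderiv_Psi_Y (C : NullCone n) (hx : ‖x‖ = 1) (hs : 0 < s) (v : E n) (i : Fin n) :
    fderiv ℝ (Psi C.H) (s • x) v i =
      s⁻¹ * (∑ j, Ws C.H s x i j * v j) + (∑ j, x j * v j) * x i := by
  rw [fderiv_Psi C (smul_ne_zero hs.ne' (ne_zero_of_one hx))]
  have h2 : ∀ j, H353.N.hs C.H i j (s • x) = s⁻¹ * H353.N.hs C.H i j x := hs_H_smul C hx hs i
  have h3 : ∀ j, Ws C.H s x i j * v j =
      H353.N.hs C.H i j x * v j + (s * (kd i j * v j) - s * x i * (x j * v j)) := by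
    intro j
    unfold Ws pr
    ring
  have h4 : ∀ j, H353.N.hs C.H i j (s • x) * v j = s⁻¹ * (H353.N.hs C.H i j x * v j) := by
    intro j
    rw [h2 j]
    ring
  simp only [h3, h4, Finset.sum_add_distrib, Finset.sum_sub_distrib, ← Finset.mul_sum,
    sum_kd_mul]
  have hs0 := hs.ne'
  field_simp
  ring

theorem fderiv_Psi_inj (C : NullCone n) (hx : ‖x‖ = 1) (hs : C.U x ≤ s) {v : E n}
    (h : fderiv ℝ (Psi C.H) (s • x) v = 0) : v = 0 := by
  have h0 : 0 < s := (posU' C hx).trans_le hs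
  have hi : ∀ i, s⁻¹ * (∑ j, Ws C.H s x i j * v j) + (∑ j, x j * v j) * x i = 0 := by
    intro i
    rw [← fderiv_Psi_Y C hx h0 v i, h]
    rfl
  -- the component along `x`
  have hxv : ∑ j, x j * v j = 0 := by
    have e1 : ∑ i, x i * (s⁻¹ * (∑ j, Ws C.H s x i j * v j) + (∑ j, x j * v j) * x i) = 0 := by
      simp only [hi, mul_zero, Finset.sum_const_zero]
    have e2 : ∑ i, x i * (∑ j, Ws C.H s x i j * v j) = 0 := by
      simp only [Finset.mul_sum]
      rw [Finset.sum_comm]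
      refine Finset.sum_eq_zero fun j _ => ?_
      have : ∑ i, x i * (Ws C.H s x i j * v j) = (∑ i, x i * Ws C.H s x i j) * v j := by
        rw [Finset.sum_mul]
        exact Finset.sum_congr rfl fun i _ => by ring
      rw [this, Ws_x' C hx j, zero_mul]
    have e3 : ∑ i, x i * (s⁻¹ * (∑ j, Ws C.H s x i j * v j) + (∑ j, x j * v j) * x i) =
        s⁻¹ * (∑ i, x i * (∑ j, Ws C.H s x i j * v j)) + (∑ j, x j * v j) * ∑ i, x i * x i := by
      rw [Finset.mul_sum, Finset.mul_sum, ← Finset.sum_add_distrib]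
      exact Finset.sum_congr rfl fun i _ => by ring
    rw [e3, e2, sum_xx hx] at e1
    linarith
  have hMv : ∀ i, ∑ j, Ms C.H s x i j * v i * v j = 0 := by
    intro i
    have h1 := hi i
    rw [hxv, zero_mul, add_zero] at h1
    have h2 : ∑ j, Ws C.H s x i j * v j = 0 := (mul_eq_zero.1 h1).resolve_left (inv_ne_zero h0.ne')
    have h3 : ∀ j, Ms C.H s x i j * v i * v j =
        v i * (Ws C.H s x i j * v j) + v i * x i * (x j * v j) := by
      intro j
      simp only [Ms, Matrix.of_apply]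
      ring
    simp only [h3, Finset.sum_add_distrib, ← Finset.mul_sum, h2, hxv]
    ring
  by_contra hne
  have hne' : (fun i => v i) ≠ 0 := by
    intro h
    apply hne
    ext i
    exact congrFun h i
  have := Ms_pos C hx hs (fun i => v i) hne'
  simp only [hMv, Finset.sum_const_zero, lt_irrefl] at this

/-- `Psi` maps neighbourhoods onto neighbourhoods -/
theorem Psi_map_nhds (C : NullCone n) (hx : ‖x‖ = 1) (hs : C.U x ≤ s) :
    map (Psi C.H) (𝓝 (s • x)) = 𝓝 (Psi C.H (s • x)) := by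
  have h0 : 0 < s := (posU' C hx).trans_le hs
  have hz : s • x ≠ 0 := smul_ne_zero h0.ne' (ne_zero_of_one hx)
  have hinj : Function.Injective (fderiv ℝ (Psi C.H) (s • x)) := by
    rw [injective_iff_map_eq_zero]
    intro v hv
    exact fderiv_Psi_inj C hx hs hv
  let L : E n ≃L[ℝ] E n := (LinearEquiv.ofInjectiveEndo
    (fderiv ℝ (Psi C.H) (s • x) : E n →ₗ[ℝ] E n) hinj).toContinuousLinearEquiv
  have hL : (L : E n →L[ℝ] E n) = fderiv ℝ (Psi C.H) (s • x) := by
    ext v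
    rfl
  have hd : HasStrictFDerivAt (Psi C.H) (L : E n →L[ℝ] E n) (s • x) := by
    rw [hL]
    exact (Psi_contDiffAt C hz).hasStrictFDerivAt (by simp)
  exact hd.map_nhds_eq_of_equiv

theorem U_cont (C : NullCone n) (hz : z ≠ 0) : ContinuousAt C.U z := (smU C).contAt hz

/-- points of the exterior near a ray -/
theorem Psi_mem (hS : IsSlice C lam V f D) (hz : z ≠ 0) (hU : C.U z ≤ ‖z‖) :
    0 ≤ D.F (Psi C.H z) := (hS.dom _).2 ⟨z, hz, hU, rfl⟩

theorem eventually_P (C : NullCone n) (hx : ‖x‖ = 1) (hs : C.U x < s) :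
    ∀ᶠ z in 𝓝 (s • x), z ≠ 0 ∧ C.U z < ‖z‖ := by
  have h0 : 0 < s := (posU' C hx).trans hs
  have hx0 := ne_zero_of_one hx
  have hz : s • x ≠ 0 := smul_ne_zero h0.ne' hx0
  have h1 : ∀ᶠ z in 𝓝 (s • x), C.U z < ‖z‖ := by
    have hlt : C.U (s • x) < ‖s • x‖ := by
      rw [U_smul C hx0 h0, norm_smul_unit hx h0.le]
      exact hs
    exact (U_cont C hz).eventually_lt continuous_norm.continuousAt hlt
  exact (nhds_ne hz).and h1

theorem F_pos (hS : IsSlice C lam V f D) (hx : ‖x‖ = 1) (hs : C.U x < s) :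
    0 < D.F (Y C.H x s) := by
  have h0 : 0 < s := (posU' C hx).trans hs
  have hge : 0 ≤ D.F (Y C.H x s) := mem_Y hS hx hs.le
  rcases hge.lt_or_eq with h | h
  · exact h
  exfalso
  have hmin : IsLocalMin D.F (Y C.H x s) := by
    have h1 : ∀ᶠ y in 𝓝 (Psi C.H (s • x)), 0 ≤ D.F y := by
      rw [← Psi_map_nhds C hx hs.le, eventually_map]
      filter_upwards [eventually_P C hx hs] with z hz
      exact Psi_mem hS hz.1 hz.2.le
    rw [Y_eq C hx h0] at h1
    filter_upwards [h1] with y hy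
    rw [← h]
    exact hy
  obtain ⟨i, hi⟩ := D.dom.2.1 _ h.symm
  apply hi
  have hsm : DifferentiableAt ℝ D.F (Y C.H x s) := D.dom.1.differentiable (by simp) _
  rw [Vale.Agent.P366.Bridge.pd_eq hsm, Vale.Agent.P366.pd, hmin.fderiv_eq_zero]
  rfl

theorem Y_cont (H : E n → ℝ) (x : E n) : Continuous (Y H x) := by
  have : Continuous fun s : ℝ => (WithLp.toLp 2 fun i => pd i H x + s * x i : E n) := by
    fun_prop
  exact this

/-! ### the derivatives of `λ` -/

theorem lam_Psi_eventually (hS : IsSlice C lam V f D) (hx : ‖x‖ = 1) (hs : C.U x < s) :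
    (fun z => lam (Psi C.H z)) =ᶠ[𝓝 (s • x)] fun z => ‖z‖ := by
  filter_upwards [eventually_P C hx hs] with z hz
  exact hS.eqL z hz.1 hz.2.le

/-- the derivative of `Psi` is symmetric -/
theorem fderiv_Psi_symm (C : NullCone n) (hx : ‖x‖ = 1) (hs : 0 < s) (u v : E n) :
    ∑ i, u i * (fderiv ℝ (Psi C.H) (s • x) v i) = ∑ i, v i * (fderiv ℝ (Psi C.H) (s • x) u i) := by
  simp only [fderiv_Psi_Y C hx hs]
  have e : ∀ a b : E n, ∑ i, a i * (s⁻¹ * (∑ j, Ws C.H s x i j * b j) +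
      (∑ j, x j * b j) * x i) = s⁻¹ * (∑ i, ∑ j, Ws C.H s x i j * (a i * b j)) +
      (∑ j, x j * b j) * ∑ i, x i * a i := by
    intro a b
    rw [Finset.mul_sum, Finset.mul_sum, ← Finset.sum_add_distrib]
    refine Finset.sum_congr rfl fun i _ => ?_
    have : ∑ j, Ws C.H s x i j * (a i * b j) = a i * ∑ j, Ws C.H s x i j * b j := by
      rw [Finset.mul_sum]
      exact Finset.sum_congr rfl fun j _ => by ring
    rw [this]
    ring
  rw [e, e]
  have h1 : ∑ i, ∑ j, Ws C.H s x i j * (u i * v j) = ∑ i, ∑ j, Ws C.H s x i j * (v i * u j) := by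
    rw [Finset.sum_comm]
    refine Finset.sum_congr rfl fun i _ => Finset.sum_congr rfl fun j _ => ?_
    rw [Ws_symm C hx j i]
    ring
  rw [h1]
  ring

/-- the interior version -/
theorem pd_lam_Y_lt (hS : IsSlice C lam V f D) (hx : ‖x‖ = 1) (hs : C.U x < s) (i : Fin n) :
    pd i lam (Y C.H x s) = x i := by
  have h0 : 0 < s := (posU' C hx).trans hs
  have hx0 := ne_zero_of_one hx
  have hz : s • x ≠ 0 := smul_ne_zero h0.ne' hx0
  have hL : DifferentiableAt ℝ lam (Psi C.H (s • x)) := by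
    rw [Y_eq C hx h0]
    exact (hS.smL _ (mem_Y hS hx hs.le)).differentiableAt (by simp)
  have h1 := hL.hasFDerivAt.comp (s • x)
    ((Psi_contDiffAt C hz).differentiableAt (by simp)).hasFDerivAt
  have h2 : HasFDerivAt (fun z : E n => ‖z‖) (fderiv ℝ (fun z : E n => ‖z‖) (s • x)) (s • x) :=
    ((Sm.norm (s • x) hz).differentiableAt (by simp)).hasFDerivAt
  have h3 := (h2.congr_of_eventuallyEq (lam_Psi_eventually hS hx hs)).unique h1
  -- the difference of the gradients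
  let g : E n := WithLp.toLp 2 fun i => pd i lam (Psi C.H (s • x)) - x i
  have key : ∀ v : E n, ∑ i, pd i lam (Psi C.H (s • x)) * (fderiv ℝ (Psi C.H) (s • x) v i) =
      ∑ i, x i * v i := by
    intro v
    have h4 := congrArg (fun L : E n →L[ℝ] ℝ => L v) h3
    have h5 : fderiv ℝ (fun z : E n => ‖z‖) (s • x) v =
        fderiv ℝ lam (Psi C.H (s • x)) (fderiv ℝ (Psi C.H) (s • x) v) := h4
    rw [Vale.Agent.P366.fderiv_eq_sum_pd, Vale.Agent.P366.fderiv_eq_sum_pd lam] at h5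
    rw [show ∑ i, pd i lam (Psi C.H (s • x)) * (fderiv ℝ (Psi C.H) (s • x) v i) =
      ∑ i, (fderiv ℝ (Psi C.H) (s • x) v i) * pd i lam (Psi C.H (s • x)) from
      Finset.sum_congr rfl fun i _ => mul_comm _ _, ← h5]
    refine Finset.sum_congr rfl fun i _ => ?_
    rw [pd_norm' hz, norm_smul_unit hx h0.le]
    have hs0 := h0.ne'
    simp only [PiLp.smul_apply, smul_eq_mul]
    field_simp
  have hg : fderiv ℝ (Psi C.H) (s • x) g = 0 := by
    have hxx : ∀ v : E n, ∑ i, x i * (fderiv ℝ (Psi C.H) (s • x) v i) = ∑ i, x i * v i := by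
      intro v
      rw [fderiv_Psi_symm C hx h0 x v]
      refine Finset.sum_congr rfl fun i _ => ?_
      rw [fderiv_Psi_Y C hx h0, Ws_x C hx i, sum_xx hx]
      ring
    have hv : ∀ v : E n, ∑ i, v i * (fderiv ℝ (Psi C.H) (s • x) g i) = 0 := by
      intro v
      rw [← fderiv_Psi_symm C hx h0 g v]
      have hgi : ∀ i, g i = pd i lam (Psi C.H (s • x)) - x i := fun i => rfl
      have h4 := key v
      have h5 := hxx v
      simp only [hgi, sub_mul, Finset.sum_sub_distrib]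
      rw [h4, h5, sub_self]
    ext i
    have := hv (EuclideanSpace.single i 1)
    simpa using this
  have := fderiv_Psi_inj C hx hs.le hg
  have h6 : pd i lam (Psi C.H (s • x)) - x i = 0 := congrArg (fun g : E n => g i) this
  rw [Y_eq C hx h0] at h6
  linarith

theorem pd_contDiffAt {g : E n → ℝ} (hg : ContDiffAt ℝ ∞ g y) (i : Fin n) :
    ContDiffAt ℝ ∞ (pd i g) y := by
  have h1 : ContDiffAt ℝ ∞ (fderiv ℝ g) y := hg.fderiv_right (by simp)
  exact h1.clm_apply (contDiffAt_const (c := EuclideanSpace.single i (1 : ℝ)))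

theorem pd_contAt {g : E n → ℝ} (hg : ContDiffAt ℝ ∞ g y) (i : Fin n) : ContinuousAt (pd i g) y :=
  (pd_contDiffAt hg i).continuousAt

/-- an identity along the open ray extends to its end point -/
theorem ray_closed {g : ℝ → ℝ} {a c : ℝ} (hg : ContinuousAt g a) (h : ∀ s, a < s → g s = c) :
    g a = c := by
  have h1 : Tendsto g (𝓝[>] a) (𝓝 (g a)) := hg.tendsto.mono_left nhdsWithin_le_nhds
  have h2 : Tendsto g (𝓝[>] a) (𝓝 c) := by
    refine tendsto_const_nhds.congr' ?_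
    filter_upwards [self_mem_nhdsWithin] with s hs
    exact (h s hs).symm
  exact tendsto_nhds_unique h1 h2

theorem pd_lam_Y (hS : IsSlice C lam V f D) (hx : ‖x‖ = 1) (hs : C.U x ≤ s) (i : Fin n) :
    pd i lam (Y C.H x s) = x i := by
  rcases hs.lt_or_eq with h | h
  · exact pd_lam_Y_lt hS hx h i
  · have hc : ContinuousAt (fun t => pd i lam (Y C.H x t)) s :=
      ContinuousAt.comp (f := Y C.H x) (pd_contAt (hS.smL _ (mem_Y hS hx hs)) i)
        (Y_cont C.H x).continuousAt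
    exact ray_closed hc fun t ht => pd_lam_Y_lt hS hx (h ▸ ht) i

end Vale.Agent.P366.KSN
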