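import Vale.Agent.P366.Kerr.Defs
import Vale.Agent.P366.H353.N.Basic

/-! Notation for the proofs on Kerr-Schild exteriors, all dimensions. -/

open MeasureTheory Metric Filter Topology Set
open scoped ContDiff ENNReal

noncomputable section
namespace Vale.Agent.P366.KSN

open Vale.Agent.P366 (pd E)
open Vale.Agent.P366.H353.N
open Vale.Agent.P366.Kerr (NullCone IsSlice Region Psi pt sp nul ksG indG indK DECat)

variable {n : ℕ}

/-- The point `∇H(x) + s x`, `x` a unit vector: the point `Psi H (s • x)`. -/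
def Y (H : E n → ℝ) (x : E n) (s : ℝ) : E n := WithLp.toLp 2 fun i => pd i H x + s * x i

/-- `W = Hess h + (h + s) I` at the unit vector `x`. -/
def Ws (H : E n → ℝ) (s : ℝ) (x : E n) (i j : Fin n) : ℝ := hs H i j x + s * pr x i j

/-- `W + x xᵀ` at the unit vector `x`. -/
def Ms (H : E n → ℝ) (s : ℝ) (x : E n) : Matrix (Fin n) (Fin n) ℝ :=
  Matrix.of fun i j => Ws H s x i j + x i * x j

/-- The determinant of `W` on the tangent space. -/
def dts (H : E n → ℝ) (s : ℝ) (x : E n) : ℝ := (Ms H s x).det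

/-- The trace of the cofactor matrix of `W` on the tangent space. -/
def sg (H : E n → ℝ) (s : ℝ) (x : E n) : ℝ := (Ms H s x).adjugate.trace - (Ms H s x).det

/-- the derivative of `f` in the direction `∇λ` -/
def dL (lam f : E n → ℝ) (y : E n) : ℝ := ∑ i, pd i lam y * pd i f y

/-- the vector field `b = - ∇ᵀ f / (1 + ∂_λ f)` -/
def bv (lam f : E n → ℝ) (i : Fin n) (y : E n) : ℝ :=
  - (pd i f y - dL lam f y * pd i lam y) / (1 + dL lam f y)

/-- `θ_ℓ`: the flat outgoing expansion of the level set of `f + λ` -/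
def thl (lam f : E n → ℝ) (y : E n) : ℝ :=
  lap lam y * (1 - ∑ i, pd i f y ^ 2) / (1 + dL lam f y) ^ 2 +
    2 / (1 + dL lam f y) *
      ((∑ i, ∑ j, hs f i j y * pr (fun k => pd k lam y) i j) +
        2 * (∑ i, ∑ j, hs f i j y * bv lam f i y * pd j lam y) +
        (∑ i, bv lam f i y ^ 2) * ∑ i, ∑ j, hs f i j y * pd i lam y * pd j lam y)

end Vale.Agent.P366.KSN
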