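import Vale.Agent.P366.H222.N.X0e
import Vale.Agent.P366.H208.N.X3
import Vale.Agent.P366.H208.ND

/-! Kerr-Schild exteriors in all dimensions: the final inequality from the leaves. -/

open MeasureTheory Metric Filter Topology Set
open scoped ContDiff ENNReal

noncomputable section
namespace Vale.Agent.P366.KSN

open Vale.Agent.P366 (pd E sphM)
open Vale.Agent.P366.H353.N
open Vale.Agent.P366.Kerr (NullCone IsSlice Region Psi pt sp nul ksG indG indK DECat)

variable {n : ℕ} {C : NullCone n} {lam f : E n → ℝ} {V : E (n + 1) → ℝ}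
  {D : Stmt.Exterior n} {x y : E n} {s t : ℝ}

theorem om_eq (n : ℕ) : Stmt.omega n = om n := by
  rw [Vale.Agent.P366.omega_eq, ← sphM_univ]
  rfl

theorem exists_unit' (hn : 0 < n) : ∃ x : E n, ‖x‖ = 1 :=
  ⟨EuclideanSpace.single ⟨0, hn⟩ 1, by simp⟩

theorem SI_pos [Fact (3 ≤ n)] {g : E n → ℝ} (hc : ContinuousOn g (sphere (0 : E n) 1))
    (hg : ∀ x : E n, ‖x‖ = 1 → 0 < g x) : 0 < SI g := by
  have h3 := Fact.out (p := 3 ≤ n)
  obtain ⟨e, he⟩ := exists_unit' (n := n) (by omega)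
  obtain ⟨x0, hx0, hmin⟩ := (isCompact_sphere (0 : E n) 1).exists_isMinOn
    ⟨e, by simpa using he⟩ hc
  have hx1 : ‖x0‖ = 1 := by simpa using hx0
  have h1 : SI (fun _ : E n => g x0) ≤ SI g :=
    SI_mono continuousOn_const hc fun x hx => hmin (by simpa using hx)
  rw [SI_const] at h1
  exact (mul_pos om_pos (hg x0 hx1)).trans_le h1

theorem Phi_nonneg [Fact (3 ≤ n)] (C : NullCone n) (hx : ‖x‖ = 1) : 0 ≤ C.toDat.Phi x := by
  obtain ⟨T, hA, hb, -⟩ := toTen C.toDat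
  have h3 : 0 < H353.N.tr (C.toDat.A x) := by
    rw [X3.tr_A C.toDat hx]
    exact sg_pos C hx le_rfl
  unfold Dat.Phi
  rw [← hA, ← hb] at *
  have h1 := D208.qf_le_tr (T.symA x) (fun v => D208.qf_nonneg (D208.sum_sq hx) (T.symA x)
    (T.tanA x (ne_zero_of_one hx)) (T.posA x hx) v) (T.b x)
  linarith

/-- The final inequality from the core inequality, the area bound and the bound on the
integral of `Phi`. -/
theorem final_of [Fact (3 ≤ n)] {m : ℝ}
    (hcore : ((n : ℝ) - 1) ^ (n - 1) * om n * SI C.toDat.dt ^ (n - 2) ≤ SI C.toDat.Phi ^ (n - 1))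
    (h6 : D.Amin ≤ ENNReal.ofReal (SI (fun x => dts C.H (C.U x) x)))
    (hPhi : SI C.toDat.Phi ≤ 2 * ((n : ℝ) - 1) * om n * m) :
    D.Amin ≠ ⊤ ∧ 0 < m ∧
      (D.Amin.toReal / Stmt.omega n) ^ (((n : ℝ) - 2) / ((n : ℝ) - 1)) / 2 ≤ m := by
  have h3 := Fact.out (p := 3 ≤ n)
  have hn : (3 : ℝ) ≤ (n : ℝ) := by exact_mod_cast h3
  have hom : 0 < om n := om_pos
  have hdt : SI C.toDat.dt = SI (fun x => dts C.H (C.U x) x) :=
    SI_congr fun x hx => X3.dt_one C.toDat hx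
  rw [← hdt] at h6
  have hA : 0 < SI C.toDat.dt := by
    rw [hdt]
    exact SI_pos (dts_cont C (smU C)) fun x hx => dts_pos C hx le_rfl
  have hPhi0 : 0 ≤ SI C.toDat.Phi := SI_nonneg fun x hx => Phi_nonneg C hx
  have hL : 0 < ((n : ℝ) - 1) ^ (n - 1) * om n * SI C.toDat.dt ^ (n - 2) := by
    have : 0 < (n : ℝ) - 1 := by linarith
    positivity
  have hm : 0 < m := by
    by_contra hneg
    have h1 : 2 * ((n : ℝ) - 1) * om n * m ≤ 0 :=
      mul_nonpos_of_nonneg_of_nonpos (by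
        have : 0 < (n : ℝ) - 1 := by linarith
        positivity) (not_lt.1 hneg)
    have h2 : SI C.toDat.Phi = 0 := le_antisymm (hPhi.trans h1) hPhi0
    rw [h2, zero_pow (by omega)] at hcore
    linarith
  have htop : D.Amin ≠ ⊤ := ne_top_of_le_ne_top ENNReal.ofReal_ne_top h6
  have hle : D.Amin.toReal ≤ SI C.toDat.dt := by
    have := (ENNReal.toReal_le_toReal htop ENNReal.ofReal_ne_top).2 h6
    rwa [ENNReal.toReal_ofReal hA.le] at this
  refine ⟨htop, hm, ?_⟩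
  rw [om_eq]
  -- `(A / om) ^ (n - 2) ≤ (2 m) ^ (n - 1)`
  have hA0 : 0 ≤ D.Amin.toReal / om n := div_nonneg ENNReal.toReal_nonneg hom.le
  have h4 : (D.Amin.toReal / om n) ^ (n - 2) ≤ (2 * m) ^ (n - 1) := by
    have h5 : (D.Amin.toReal / om n) ^ (n - 2) ≤ (SI C.toDat.dt / om n) ^ (n - 2) :=
      pow_le_pow_left₀ hA0 (by gcongr) _
    refine h5.trans ?_
    have h6 : ((n : ℝ) - 1) ^ (n - 1) * om n * SI C.toDat.dt ^ (n - 2) ≤
        (2 * ((n : ℝ) - 1) * om n * m) ^ (n - 1) :=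
      hcore.trans (pow_le_pow_left₀ hPhi0 hPhi _)
    have h7 : (2 * ((n : ℝ) - 1) * om n * m) ^ (n - 1) =
        (((n : ℝ) - 1) ^ (n - 1) * om n ^ (n - 1)) * (2 * m) ^ (n - 1) := by
      rw [← mul_pow, ← mul_pow]
      ring
    have h8 : om n ^ (n - 1) = om n * om n ^ (n - 2) := by
      rw [← pow_succ']
      congr 1
      omega
    have h9 : SI C.toDat.dt ^ (n - 2) = (SI C.toDat.dt / om n) ^ (n - 2) * om n ^ (n - 2) := by
      rw [← mul_pow, div_mul_cancel₀ _ hom.ne']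
    rw [h7, h8, h9] at h6
    have h10 : 0 < ((n : ℝ) - 1) ^ (n - 1) * (om n * om n ^ (n - 2)) := by
      have : 0 < (n : ℝ) - 1 := by linarith
      positivity
    refine le_of_mul_le_mul_left ?_ h10
    calc ((n : ℝ) - 1) ^ (n - 1) * (om n * om n ^ (n - 2)) * (SI C.toDat.dt / om n) ^ (n - 2)
        = ((n : ℝ) - 1) ^ (n - 1) * om n *
          ((SI C.toDat.dt / om n) ^ (n - 2) * om n ^ (n - 2)) := by ring
      _ ≤ _ := h6
  have h2m : 0 < 2 * m := by linarith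
  have hn1 : (0 : ℝ) < (n : ℝ) - 1 := by linarith
  have hc1 : ((n - 1 : ℕ) : ℝ) = (n : ℝ) - 1 := by
    rw [Nat.cast_sub (by omega)]; norm_num
  have hc2 : ((n - 2 : ℕ) : ℝ) = (n : ℝ) - 2 := by
    rw [Nat.cast_sub (by omega)]; norm_num
  have h11 : (D.Amin.toReal / om n) ^ (((n : ℝ) - 2) / ((n : ℝ) - 1)) ≤ 2 * m := by
    rw [div_eq_mul_inv ((n : ℝ) - 2), Real.rpow_mul hA0, ← hc2, Real.rpow_natCast]
    calc ((D.Amin.toReal / om n) ^ (n - 2)) ^ ((n : ℝ) - 1)⁻¹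
        ≤ ((2 * m) ^ (n - 1)) ^ ((n : ℝ) - 1)⁻¹ :=
          Real.rpow_le_rpow (pow_nonneg hA0 _) h4 (by positivity)
      _ = 2 * m := by
          rw [← hc1]
          exact Real.pow_rpow_inv_natCast h2m.le (by omega)
  linarith

end Vale.Agent.P366.KSN
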