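import Vale.Agent.P366.H222.N.X0b

/-! Geometry of the rays, all dimensions, part 3: second derivatives of `λ`. -/

open MeasureTheory Metric Filter Topology Set
open scoped ContDiff ENNReal

noncomputable section
namespace Vale.Agent.P366.KSN

open Vale.Agent.P366 (pd E)
open Vale.Agent.P366.H353.N
open Vale.Agent.P366.Kerr (NullCone IsSlice Region Psi pt sp nul ksG indG indK DECat)

variable {n : ℕ} {C : NullCone n} {lam f : E n → ℝ} {V : E (n + 1) → ℝ} {D : Stmt.Exterior n}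
  {x y z : E n} {s t : ℝ}

/-- second derivatives commute -/
theorem hs_symm_at {g : E n → ℝ} (hc : ContDiffAt ℝ ∞ g y) (i j : Fin n) :
    H353.N.hs g i j y = H353.N.hs g j i y := by
  have hd : DifferentiableAt ℝ (fderiv ℝ g) y :=
    (hc.fderiv_right (m := ∞) (by simp)).differentiableAt (by simp)
  have key : ∀ a b : Fin n, H353.N.hs g a b y =
      fderiv ℝ (fderiv ℝ g) y (EuclideanSpace.single a 1) (EuclideanSpace.single b 1) := by
    intro a b
    unfold H353.N.hs Vale.Agent.P366.pd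
    have := fderiv_clm_apply hd (differentiableAt_const (EuclideanSpace.single b (1 : ℝ)))
    rw [this]
    simp
  rw [key, key]
  have h2 : minSmoothness ℝ 2 ≤ (∞ : WithTop ℕ∞) := by
    rw [minSmoothness_of_isRCLikeNormedField]
    exact WithTop.coe_le_coe.2 (le_top : (2 : ℕ∞) ≤ ⊤)
  exact (hc.isSymmSndFDerivAt h2).eq _ _

/-- the gradient of `λ` at the points `Psi z` -/
theorem pd_lam_Psi (hS : IsSlice C lam V f D) (hz : z ≠ 0) (hU : C.U z ≤ ‖z‖) (i : Fin n) :
    pd i lam (Psi C.H z) = z i / ‖z‖ := by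
  obtain ⟨x, hx, hzx⟩ := exists_unit hz
  have hn : 0 < ‖z‖ := norm_pos_iff.2 hz
  have hUx : C.U x ≤ ‖z‖ := by
    rw [← U_smul C (ne_zero_of_one hx) hn, ← hzx]
    exact hU
  have h1 : Psi C.H z = Y C.H x ‖z‖ := by
    rw [← Y_eq C hx hn, ← hzx]
  rw [h1, pd_lam_Y hS hx hUx]
  have h2 : z i = ‖z‖ * x i := by
    conv_lhs => rw [hzx]
    simp
  rw [h2]
  field_simp

theorem pd_coord_div_norm (hz : z ≠ 0) (i j : Fin n) :
    pd j (fun w : E n => w i / ‖w‖) z = kd j i / ‖z‖ - z i * z j / ‖z‖ ^ 3 := by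
  have hn : ‖z‖ ≠ 0 := norm_ne_zero_iff.2 hz
  have h1 : pd j (fun w : E n => w i) z = kd j i := pd_coord' j i
  have h2 : pd j (fun w : E n => (‖w‖)⁻¹) z = - (z j / ‖z‖) / ‖z‖ ^ 2 := by
    have hd : HasFDerivAt (fun w : E n => ‖w‖) (fderiv ℝ (fun w : E n => ‖w‖) z) z :=
      ((Sm.norm z hz).differentiableAt (by simp)).hasFDerivAt
    have h3 := (hasDerivAt_inv hn).comp_hasFDerivAt z hd
    have h4 : fderiv ℝ (fun w : E n => (‖w‖)⁻¹) z = -(‖z‖ ^ 2)⁻¹ • fderiv ℝ (fun w : E n => ‖w‖) z :=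
      h3.fderiv
    have h5 := pd_norm' (x := z) hz j
    unfold Vale.Agent.P366.pd at h5 ⊢
    rw [h4, smul_apply, h5, smul_eq_mul]
    field_simp
  have h3 : (fun w : E n => w i / ‖w‖) = fun w => w i * (‖w‖)⁻¹ := by
    funext w
    rw [div_eq_mul_inv]
  have hdi : DifferentiableAt ℝ (fun w : E n => (‖w‖)⁻¹) z :=
    ((Sm.norm z hz).differentiableAt (by simp)).inv hn
  rw [h3, Vale.Agent.P366.pd_mul ((Sm.coord i z hz).differentiableAt (by simp)) hdi, h1, h2]
  field_simp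
  ring

/-- the interior version of `D²λ W = 1` -/
theorem hs_lam_Y_aux (hS : IsSlice C lam V f D) (hx : ‖x‖ = 1) (hs : C.U x < s) (i j : Fin n) :
    ∑ k, H353.N.hs lam i k (Y C.H x s) * (H353.N.hs C.H k j x + s * kd k j) = pr x i j := by
  have h0 : 0 < s := (posU' C hx).trans hs
  have hx0 := ne_zero_of_one hx
  have hz : s • x ≠ 0 := smul_ne_zero h0.ne' hx0
  have hsm : ContDiffAt ℝ ∞ lam (Psi C.H (s • x)) := by
    rw [Y_eq C hx h0]
    exact hS.smL _ (mem_Y hS hx hs.le)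
  have hd1 : DifferentiableAt ℝ (pd i lam) (Psi C.H (s • x)) :=
    (pd_contDiffAt hsm i).differentiableAt (by simp)
  have h1 := hd1.hasFDerivAt.comp (s • x)
    ((Psi_contDiffAt C hz).differentiableAt (by simp)).hasFDerivAt
  have he : (fun z => pd i lam (Psi C.H z)) =ᶠ[𝓝 (s • x)] fun z => z i / ‖z‖ := by
    filter_upwards [eventually_P C hx hs] with z hz
    exact pd_lam_Psi hS hz.1 hz.2.le i
  have h2 : fderiv ℝ (fun z : E n => z i / ‖z‖) (s • x) =
      (fderiv ℝ (pd i lam) (Psi C.H (s • x))).comp (fderiv ℝ (Psi C.H) (s • x)) := by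
    rw [← he.fderiv_eq]
    exact h1.fderiv
  have h3 := congrArg (fun L : E n →L[ℝ] ℝ => L (EuclideanSpace.single j 1)) h2
  have h4 : pd j (fun z : E n => z i / ‖z‖) (s • x) = fderiv ℝ (pd i lam) (Psi C.H (s • x))
      (fderiv ℝ (Psi C.H) (s • x) (EuclideanSpace.single j 1)) := h3
  rw [pd_coord_div_norm hz, Vale.Agent.P366.fderiv_eq_sum_pd, norm_smul_unit hx h0.le] at h4
  have h5 : ∀ k, fderiv ℝ (Psi C.H) (s • x) (EuclideanSpace.single j 1) k =
      s⁻¹ * H353.N.hs C.H k j x + kd k j := by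
    intro k
    rw [fderiv_Psi C hz]
    have e1 : ∑ l, H353.N.hs C.H k l (s • x) * (EuclideanSpace.single j (1 : ℝ) : E n) l =
        H353.N.hs C.H k j (s • x) := by
      rw [Finset.sum_eq_single j]
      · simp
      · intro b _ hb
        simp [hb]
      · simp
    rw [e1, hs_H_smul C hx h0]
    simp [kd]
  simp only [h5] at h4
  rw [Y_eq C hx h0] at h4
  have h6 : ∀ k, pd k (pd i lam) (Y C.H x s) = H353.N.hs lam i k (Y C.H x s) := by
    intro k
    rw [hs_symm_at (hS.smL _ (mem_Y hS hx hs.le)) i k]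
    rfl
  simp only [h6] at h4
  rw [kd_comm j i] at h4
  have hs0 := h0.ne'
  simp only [PiLp.smul_apply, smul_eq_mul] at h4
  have e7 : s * (kd i j / s - s * x i * (s * x j) / s ^ 3) = pr x i j := by
    unfold pr
    field_simp
  rw [← e7, h4, Finset.mul_sum]
  refine Finset.sum_congr rfl fun k _ => ?_
  field_simp

theorem hs_lam_mul_x_lt (hS : IsSlice C lam V f D) (hx : ‖x‖ = 1) (hs : C.U x < s) (i : Fin n) :
    ∑ k, H353.N.hs lam i k (Y C.H x s) * x k = 0 := by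
  have h0 : 0 < s := (posU' C hx).trans hs
  have h := hs_lam_Y_aux hS hx hs i
  have e1 : ∑ j, (∑ k, H353.N.hs lam i k (Y C.H x s) *
      (H353.N.hs C.H k j x + s * kd k j)) * x j = 0 := by
    simp only [h]
    exact pr_x hx i
  have e2 : s * ∑ k, H353.N.hs lam i k (Y C.H x s) * x k = 0 := by
    rw [← e1]
    simp only [Finset.sum_mul]
    rw [Finset.sum_comm, Finset.mul_sum]
    refine Finset.sum_congr rfl fun k _ => ?_
    have e3 : ∀ j, H353.N.hs lam i k (Y C.H x s) * (H353.N.hs C.H k j x + s * kd k j) * x j =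
        H353.N.hs lam i k (Y C.H x s) * (H353.N.hs C.H k j x * x j) +
          H353.N.hs lam i k (Y C.H x s) * s * (kd k j * x j) := by
      intro j
      ring
    simp only [e3, Finset.sum_add_distrib, ← Finset.mul_sum, hs_H_x C hx k, sum_kd_mul]
    ring
  exact (mul_eq_zero.1 e2).resolve_left h0.ne'

theorem hs_contAt {g : E n → ℝ} (hg : ContDiffAt ℝ ∞ g y) (i j : Fin n) :
    ContinuousAt (H353.N.hs g i j) y := pd_contAt (pd_contDiffAt hg j) i

theorem hs_lam_mul_x (hS : IsSlice C lam V f D) (hx : ‖x‖ = 1) (hs : C.U x ≤ s) (i : Fin n) :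
    ∑ k, H353.N.hs lam i k (Y C.H x s) * x k = 0 := by
  rcases hs.lt_or_eq with h | h
  · exact hs_lam_mul_x_lt hS hx h i
  · have hc : ContinuousAt (fun t => ∑ k, H353.N.hs lam i k (Y C.H x t) * x k) s := by
      refine tendsto_finsetSum _ fun k _ => ?_
      exact (ContinuousAt.comp (f := Y C.H x) (hs_contAt (hS.smL _ (mem_Y hS hx hs)) i k)
        (Y_cont C.H x).continuousAt).mul continuousAt_const
    exact ray_closed (g := fun t => ∑ k, H353.N.hs lam i k (Y C.H x t) * x k) hc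
      fun t ht => hs_lam_mul_x_lt hS hx (h ▸ ht) i

/-- `D²λ = W⁻¹` -/
theorem hs_lam_Y (hS : IsSlice C lam V f D) (hx : ‖x‖ = 1) (hs : C.U x ≤ s) (i j : Fin n) :
    ∑ k, H353.N.hs lam i k (Y C.H x s) * Ws C.H s x k j = pr x i j := by
  have key : ∀ t, C.U x < t → ∑ k, H353.N.hs lam i k (Y C.H x t) * Ws C.H t x k j = pr x i j := by
    intro t ht
    have h1 := hs_lam_Y_aux hS hx ht i j
    have h2 := hs_lam_mul_x_lt hS hx ht i
    have h3 : ∀ k, H353.N.hs lam i k (Y C.H x t) * Ws C.H t x k j =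
        H353.N.hs lam i k (Y C.H x t) * (H353.N.hs C.H k j x + t * kd k j) -
          (H353.N.hs lam i k (Y C.H x t) * x k) * (t * x j) := by
      intro k
      unfold Ws pr
      ring
    simp only [h3, Finset.sum_sub_distrib, ← Finset.sum_mul, h2, h1]
    ring
  rcases hs.lt_or_eq with h | h
  · exact key s h
  · have hc : ContinuousAt (fun t => ∑ k, H353.N.hs lam i k (Y C.H x t) * Ws C.H t x k j) s := by
      refine tendsto_finsetSum _ fun k _ => ?_
      refine (ContinuousAt.comp (f := Y C.H x) (hs_contAt (hS.smL _ (mem_Y hS hx hs)) i k)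
        (Y_cont C.H x).continuousAt).mul ?_
      unfold Ws
      fun_prop
    exact ray_closed (g := fun t => ∑ k, H353.N.hs lam i k (Y C.H x t) * Ws C.H t x k j) hc
      fun t ht => key t (h ▸ ht)

/-- `(D²λ + x xᵀ) M = 1` -/
theorem lam_mul_Ms (hS : IsSlice C lam V f D) (hx : ‖x‖ = 1) (hs : C.U x ≤ s) :
    (Matrix.of fun i j => H353.N.hs lam i j (Y C.H x s) + x i * x j) * Ms C.H s x = 1 := by
  ext i j
  rw [Matrix.mul_apply]
  simp only [Matrix.of_apply, Ms]
  have e : ∀ k, (H353.N.hs lam i k (Y C.H x s) + x i * x k) * (Ws C.H s x k j + x k * x j) =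
      H353.N.hs lam i k (Y C.H x s) * Ws C.H s x k j +
        (H353.N.hs lam i k (Y C.H x s) * x k) * x j + x i * (x k * Ws C.H s x k j) +
        (x i * x j) * (x k * x k) := by
    intro k
    ring
  simp only [e, Finset.sum_add_distrib, hs_lam_Y hS hx hs, ← Finset.sum_mul,
    hs_lam_mul_x hS hx hs, ← Finset.mul_sum, Ws_x' C hx j, sum_xx hx]
  unfold pr kd
  rw [Matrix.one_apply]
  ring

theorem Ms_inv (hS : IsSlice C lam V f D) (hx : ‖x‖ = 1) (hs : C.U x ≤ s) :
    (Ms C.H s x)⁻¹ = Matrix.of fun i j => H353.N.hs lam i j (Y C.H x s) + x i * x j :=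
  Matrix.inv_eq_left_inv (lam_mul_Ms hS hx hs)

theorem hs_lam_eq (hS : IsSlice C lam V f D) (hx : ‖x‖ = 1) (hs : C.U x ≤ s) (i j : Fin n) :
    H353.N.hs lam i j (Y C.H x s) = (Ms C.H s x)⁻¹ i j - x i * x j := by
  rw [Ms_inv hS hx hs]
  simp

/-- `sg = det M (tr M⁻¹ - 1)` -/
theorem sg_eq (C : NullCone n) (hx : ‖x‖ = 1) (hs : C.U x ≤ s) :
    sg C.H s x = dts C.H s x * ((Ms C.H s x)⁻¹.trace - 1) := by
  have hd : (Ms C.H s x).det ≠ 0 := (dts_pos C hx hs).ne'
  unfold sg dts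
  rw [Matrix.inv_def, Matrix.trace_smul, Ring.inverse_eq_inv', smul_eq_mul]
  field_simp

theorem lap_lam_eq (hS : IsSlice C lam V f D) (hx : ‖x‖ = 1) (hs : C.U x ≤ s) :
    lap lam (Y C.H x s) = (Ms C.H s x)⁻¹.trace - 1 := by
  unfold lap Matrix.trace
  simp only [Matrix.diag_apply, hs_lam_eq hS hx hs, Finset.sum_sub_distrib, sum_xx hx]

theorem lap_lam_Y (hS : IsSlice C lam V f D) (hx : ‖x‖ = 1) (hs : C.U x ≤ s) :
    lap lam (Y C.H x s) * dts C.H s x = sg C.H s x := by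
  rw [lap_lam_eq hS hx hs, sg_eq C hx hs, mul_comm]

/-- `|D²λ|² = tr M⁻² - 1` -/
theorem hs_sq_eq (hS : IsSlice C lam V f D) (hx : ‖x‖ = 1) (hs : C.U x ≤ s) :
    ∑ i, ∑ j, H353.N.hs lam i j (Y C.H x s) ^ 2 =
      ((Ms C.H s x)⁻¹ * (Ms C.H s x)⁻¹).trace - 1 := by
  have hsy : ∀ i j, (Ms C.H s x)⁻¹ i j = (Ms C.H s x)⁻¹ j i := by
    intro i j
    rw [Ms_inv hS hx hs]
    simp only [Matrix.of_apply]
    rw [hs_symm_at (hS.smL _ (mem_Y hS hx hs)) i j, mul_comm (x i)]
  have h1 : ((Ms C.H s x)⁻¹ * (Ms C.H s x)⁻¹).trace = ∑ i, ∑ j, ((Ms C.H s x)⁻¹ i j) ^ 2 := by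
    unfold Matrix.trace
    simp only [Matrix.diag_apply, Matrix.mul_apply]
    refine Finset.sum_congr rfl fun i _ => Finset.sum_congr rfl fun j _ => ?_
    rw [hsy j i, sq]
  have h2 : ∀ i j, (Ms C.H s x)⁻¹ i j = H353.N.hs lam i j (Y C.H x s) + x i * x j := by
    intro i j
    rw [hs_lam_eq hS hx hs]
    ring
  rw [h1]
  simp only [h2]
  have h3 : ∀ i j, (H353.N.hs lam i j (Y C.H x s) + x i * x j) ^ 2 =
      H353.N.hs lam i j (Y C.H x s) ^ 2 + 2 * x i * (H353.N.hs lam i j (Y C.H x s) * x j) +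
        (x i * x i) * (x j * x j) := by
    intro i j
    ring
  simp only [h3, Finset.sum_add_distrib, ← Finset.mul_sum, hs_lam_mul_x hS hx hs, sum_xx hx]
  have h4 : ∑ i, (x i * x i) * (1 : ℝ) = 1 := by
    simp only [mul_one]
    exact sum_xx hx
  rw [h4]
  simp

/-- the gradient of `λ` is a unit vector on the exterior -/
theorem gsq_lam' (hS : IsSlice C lam V f D) (hy : 0 ≤ D.F y) : ∑ i, pd i lam y ^ 2 = 1 := by
  obtain ⟨x, s, hx, hs, rfl⟩ := (mem_iff hS).1 hy
  simp only [pd_lam_Y hS hx hs, sq]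
  exact sum_xx hx

/-- the gradient of `λ` is a unit vector near interior points -/
theorem gsq_lam (hS : IsSlice C lam V f D) (hy : 0 < D.F y) :
    ∀ᶠ z in 𝓝 y, ∑ i, pd i lam z ^ 2 = 1 := by
  have h1 : ∀ᶠ z in 𝓝 y, 0 < D.F z :=
    (D.dom.1.continuous.continuousAt).eventually (lt_mem_nhds hy)
  filter_upwards [h1] with z hz
  exact gsq_lam' hS hz.le

end Vale.Agent.P366.KSN
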