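import Vale.Agent.P366.H222.N.X0c
import Vale.Agent.P366.H375.X2b

/-! Geometry of the rays, all dimensions, part 4: the induced metric, the region. -/

open MeasureTheory Metric Filter Topology Set
open scoped ContDiff ENNReal

noncomputable section
namespace Vale.Agent.P366.KSN

open Vale.Agent.P366 (pd E)
open Vale.Agent.P366.H353.N
open Vale.Agent.P366.Kerr (NullCone IsSlice Region Psi pt sp nul ksG indG indK DECat)

variable {n : ℕ} {C : NullCone n} {lam f : E n → ℝ} {V : E (n + 1) → ℝ} {D : Stmt.Exterior n}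
  {x y z : E n} {s t : ℝ}

@[simp] theorem sp_pt (t : ℝ) (y : E n) : sp (pt t y) = y := rfl

@[simp] theorem pt_zero (t : ℝ) (y : E n) : pt t y 0 = t := rfl

@[simp] theorem pt_succ (t : ℝ) (y : E n) (i : Fin n) : pt t y i.succ = y i := rfl

theorem nul_pt (lam : E n → ℝ) (t : ℝ) (y : E n) : nul lam (pt t y) = t + lam y := rfl

/-- the projection to space is linear and continuous -/
def spL : E (n + 1) →L[ℝ] E n :=
  LinearMap.toContinuousLinearMap
    { toFun := sp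
      map_add' := fun p q => by ext i; rfl
      map_smul' := fun c p => by ext i; rfl }

theorem spL_apply (p : E (n + 1)) : spL p = sp p := rfl

theorem sp_hasFDerivAt (p : E (n + 1)) : HasFDerivAt sp spL p := spL.hasFDerivAt

theorem sp_contDiff : ContDiff ℝ ∞ (sp : E (n + 1) → E n) := (spL (n := n)).contDiff

theorem sp_single_succ (i : Fin n) : sp (EuclideanSpace.single i.succ (1 : ℝ)) =
    EuclideanSpace.single i 1 := by
  ext j
  simp [sp]

theorem sp_single_zero : sp (EuclideanSpace.single (0 : Fin (n + 1)) (1 : ℝ)) = 0 := by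
  ext j
  simp [sp]

theorem nul_contDiffAt {p : E (n + 1)} (hl : ContDiffAt ℝ ∞ lam (sp p)) : ContDiffAt ℝ ∞ (nul lam) p := by
  have h1 : ContDiffAt ℝ ∞ (fun p : E (n + 1) => p 0) p :=
    (contDiff_piLp_apply (p := 2) (i := (0 : Fin (n + 1)))).contDiffAt
  exact h1.add (hl.comp p sp_contDiff.contDiffAt)

theorem nul_diff {p : E (n + 1)} (hl : DifferentiableAt ℝ lam (sp p)) :
    DifferentiableAt ℝ (nul lam) p :=
  ((EuclideanSpace.proj 0 : E (n + 1) →L[ℝ] ℝ).differentiableAt).add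
    (hl.comp p (sp_hasFDerivAt p).differentiableAt)

theorem pd_nul_zero {p : E (n + 1)} (hl : DifferentiableAt ℝ lam (sp p)) : pd 0 (nul lam) p = 1 := by
  have h1 : HasFDerivAt (fun p : E (n + 1) => p 0) (EuclideanSpace.proj 0 : E (n + 1) →L[ℝ] ℝ) p :=
    (EuclideanSpace.proj 0 : E (n + 1) →L[ℝ] ℝ).hasFDerivAt
  have h2 : HasFDerivAt (fun p : E (n + 1) => lam (sp p)) ((fderiv ℝ lam (sp p)).comp spL) p :=
    hl.hasFDerivAt.comp p (sp_hasFDerivAt p)
  have h3 : HasFDerivAt (nul lam) _ p := h1.add h2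
  unfold Vale.Agent.P366.pd
  rw [h3.fderiv]
  have h4 : fderiv ℝ lam (sp p) (spL (EuclideanSpace.single (0 : Fin (n + 1)) (1 : ℝ))) = 0 := by
    rw [spL_apply, sp_single_zero, map_zero]
  show (EuclideanSpace.single (0 : Fin (n + 1)) (1 : ℝ) : E (n + 1)) 0 +
    fderiv ℝ lam (sp p) (spL (EuclideanSpace.single (0 : Fin (n + 1)) (1 : ℝ))) = 1
  rw [h4]
  simp

theorem pd_nul_succ {p : E (n + 1)} (hl : DifferentiableAt ℝ lam (sp p)) (i : Fin n) :
    pd i.succ (nul lam) p = pd i lam (sp p) := by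
  have h1 : HasFDerivAt (fun p : E (n + 1) => p 0) (EuclideanSpace.proj 0 : E (n + 1) →L[ℝ] ℝ) p :=
    (EuclideanSpace.proj 0 : E (n + 1) →L[ℝ] ℝ).hasFDerivAt
  have h2 : HasFDerivAt (fun p : E (n + 1) => lam (sp p)) ((fderiv ℝ lam (sp p)).comp spL) p :=
    hl.hasFDerivAt.comp p (sp_hasFDerivAt p)
  have h3 : HasFDerivAt (nul lam) _ p := h1.add h2
  unfold Vale.Agent.P366.pd
  rw [h3.fderiv]
  have h4 : fderiv ℝ lam (sp p) (spL (EuclideanSpace.single i.succ (1 : ℝ))) =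
      fderiv ℝ lam (sp p) (EuclideanSpace.single i 1) := by
    rw [spL_apply, sp_single_succ]
  show (EuclideanSpace.single i.succ (1 : ℝ) : E (n + 1)) 0 +
    fderiv ℝ lam (sp p) (spL (EuclideanSpace.single i.succ (1 : ℝ))) = _
  rw [h4]
  simp [Ne.symm (Fin.succ_ne_zero i)]

/-- the Kerr-Schild metric, blocks -/
theorem ksG_zero_zero {p : E (n + 1)} (hl : DifferentiableAt ℝ lam (sp p)) :
    ksG lam V p 0 0 = -1 + V p := by
  have hn := nul_diff hl
  unfold ksG
  rw [Vale.Agent.P366.Bridge.pd_eq hn, pd_nul_zero hl]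
  simp

theorem ksG_zero_succ {p : E (n + 1)} (hl : DifferentiableAt ℝ lam (sp p)) (i : Fin n) :
    ksG lam V p 0 i.succ = V p * pd i lam (sp p) := by
  have hn := nul_diff hl
  unfold ksG
  rw [Vale.Agent.P366.Bridge.pd_eq hn, Vale.Agent.P366.Bridge.pd_eq hn, pd_nul_zero hl,
    pd_nul_succ hl]
  simp [Ne.symm (Fin.succ_ne_zero i)]

theorem ksG_succ_zero {p : E (n + 1)} (hl : DifferentiableAt ℝ lam (sp p)) (i : Fin n) :
    ksG lam V p i.succ 0 = V p * pd i lam (sp p) := by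
  have hn := nul_diff hl
  unfold ksG
  rw [Vale.Agent.P366.Bridge.pd_eq hn, Vale.Agent.P366.Bridge.pd_eq hn, pd_nul_zero hl,
    pd_nul_succ hl]
  simp

theorem ksG_succ_succ {p : E (n + 1)} (hl : DifferentiableAt ℝ lam (sp p)) (i j : Fin n) :
    ksG lam V p i.succ j.succ = kd i j + V p * pd i lam (sp p) * pd j lam (sp p) := by
  have hn := nul_diff hl
  unfold ksG
  rw [Vale.Agent.P366.Bridge.pd_eq hn, Vale.Agent.P366.Bridge.pd_eq hn,
    pd_nul_succ hl, pd_nul_succ hl]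
  simp [kd, Fin.succ_inj]

/-- the induced metric `δ - df df + V dF dF`, `F = f + λ` -/
theorem indG_eq (hl : DifferentiableAt ℝ lam y) (hf : DifferentiableAt ℝ f y) (i j : Fin n) :
    indG (ksG lam V) f y i j = kd i j - pd i f y * pd j f y +
      V (pt (f y) y) * (pd i f y + pd i lam y) * (pd j f y + pd j lam y) := by
  have hl' : DifferentiableAt ℝ lam (sp (pt (f y) y)) := hl
  unfold indG Kerr.tng
  rw [Fin.sum_univ_succ]
  simp only [Fin.sum_univ_succ (n := n), Fin.cons_zero, Fin.cons_succ]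
  simp only [ksG_zero_zero hl', ksG_zero_succ hl', ksG_succ_zero hl', ksG_succ_succ hl',
    Vale.Agent.P366.Bridge.pd_eq hf, sp_pt]
  have e1 : ∀ (g : Fin n → ℝ), ∑ k, g k * (Pi.single j (1 : ℝ) : Fin n → ℝ) k = g j := by
    intro g
    simp [Pi.single_apply]
  have e2 : ∀ (g : Fin n → ℝ), ∑ k, g k * (Pi.single i (1 : ℝ) : Fin n → ℝ) k = g i := by
    intro g
    simp [Pi.single_apply]
  have e3 : ∀ k : Fin n, (∑ l, (kd k l + V (pt (f y) y) * pd k lam y * pd l lam y) *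
      (Pi.single i (1 : ℝ) : Fin n → ℝ) k * (Pi.single j (1 : ℝ) : Fin n → ℝ) l) =
      (kd k j + V (pt (f y) y) * pd k lam y * pd j lam y) *
        (Pi.single i (1 : ℝ) : Fin n → ℝ) k := by
    intro k
    rw [e1]
  simp only [e1, Finset.sum_add_distrib, e3]
  simp only [← Finset.sum_mul, e2, mul_right_comm _ _ (pd j f y)]
  ring

theorem lam_diff (hS : IsSlice C lam V f D) (hy : 0 ≤ D.F y) : DifferentiableAt ℝ lam y :=
  (hS.smL y hy).differentiableAt (by simp)

theorem f_diff (hS : IsSlice C lam V f D) (hy : 0 ≤ D.F y) : DifferentiableAt ℝ f y :=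
  (hS.smf y hy).differentiableAt (by simp)

theorem KG_posDef (hS : IsSlice C lam V f D) (hy : 0 ≤ D.F y) :
    (H375.KG (fun i => pd i f y) (fun i => pd i lam y) (V (pt (f y) y))).PosDef := by
  have h1 := D.pos y hy
  have h2 : Stmt.mat D.g y =
      H375.KG (fun i => pd i f y) (fun i => pd i lam y) (V (pt (f y) y)) := by
    ext i j
    have h3 : Stmt.mat D.g y i j = D.g y i j := rfl
    rw [h3, hS.met y hy i j, indG_eq (lam_diff hS hy) (f_diff hS hy)]
    rfl
  rw [← h2]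
  exact h1

theorem det_indG_pos (hS : IsSlice C lam V f D) (hy : 0 ≤ D.F y) :
    0 < 1 - ∑ i, pd i f y ^ 2 + V (pt (f y) y) * (1 + dL lam f y) ^ 2 := by
  have hu : ∑ i, pd i lam y * pd i lam y = 1 := by
    rw [← gsq_lam' hS hy]
    exact Finset.sum_congr rfl fun i _ => (sq _).symm
  have h := H375.sq_pos_of_posDef hu (KG_posDef hS hy)
  have e1 : ∑ i, pd i f y ^ 2 = ∑ i, pd i f y * pd i f y :=
    Finset.sum_congr rfl fun i _ => sq _
  have e2 : dL lam f y = ∑ i, pd i f y * pd i lam y :=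
    Finset.sum_congr rfl fun i _ => mul_comm _ _
  rw [e1, e2]
  exact h

/-- the slice is never tangent to the null direction -/
theorem dL_ne (hS : IsSlice C lam V f D) (hy : 0 ≤ D.F y) : 1 + dL lam f y ≠ 0 := by
  have hu : ∑ i, pd i lam y * pd i lam y = 1 := by
    rw [← gsq_lam' hS hy]
    exact Finset.sum_congr rfl fun i _ => (sq _).symm
  have e2 : dL lam f y = ∑ i, pd i f y * pd i lam y :=
    Finset.sum_congr rfl fun i _ => mul_comm _ _
  rw [e2]
  exact H375.ne_of_posDef hu (KG_posDef hS hy)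

theorem dL_Y (hS : IsSlice C lam V f D) (hx : ‖x‖ = 1) (hs : C.U x ≤ s) :
    dL lam f (Y C.H x s) = ∑ i, x i * pd i f (Y C.H x s) := by
  unfold dL
  simp only [pd_lam_Y hS hx hs]

theorem norm_Y_ge (H : E n → ℝ) (hx : ‖x‖ = 1) (s : ℝ) : s - ‖Y H x 0‖ ≤ ‖Y H x s‖ := by
  have h1 : Y H x s = Y H x 0 + s • x := by
    ext i
    simp [Y_apply]
  have h2 : s ≤ ‖s • x‖ := by
    rw [norm_smul, hx, mul_one]
    exact le_abs_self s
  have h3 : ‖s • x‖ ≤ ‖Y H x s‖ + ‖Y H x 0‖ := by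
    have : s • x = Y H x s - Y H x 0 := by rw [h1]; simp
    rw [this]
    exact norm_sub_le _ _
  linarith

/-- far out the slice is `t = 0` -/
theorem f_zero_near (hS : IsSlice C lam V f D) (x : E n) (hx : ‖x‖ = 1) :
    ∃ S, ∀ s, S ≤ s → f =ᶠ[𝓝 (Y C.H x s)] fun _ => 0 := by
  obtain ⟨R, hR⟩ := hS.cpt
  refine ⟨R + ‖Y C.H x 0‖ + 1, fun s hs => ?_⟩
  have h1 : R < ‖Y C.H x s‖ := by
    have := norm_Y_ge C.H hx s
    linarith
  have h2 : ∀ᶠ z in 𝓝 (Y C.H x s), R < ‖z‖ :=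
    continuous_norm.continuousAt.eventually (lt_mem_nhds h1)
  filter_upwards [h2] with z hz
  exact hR z hz

theorem dL_Y_contOn (hS : IsSlice C lam V f D) (hx : ‖x‖ = 1) :
    ContinuousOn (fun s => 1 + dL lam f (Y C.H x s)) (Ici (C.U x)) := by
  intro s hs
  have hs' : C.U x ≤ s := hs
  have hmem := mem_Y hS hx hs'
  refine ContinuousAt.continuousWithinAt ?_
  refine continuousAt_const.add ?_
  unfold dL
  refine tendsto_finsetSum _ fun i _ => ?_
  exact (ContinuousAt.comp (f := Y C.H x) (pd_contAt (hS.smL _ hmem) i)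
    (Y_cont C.H x).continuousAt).mul
    (ContinuousAt.comp (f := Y C.H x) (pd_contAt (hS.smf _ hmem) i) (Y_cont C.H x).continuousAt)

theorem dL_pos (hS : IsSlice C lam V f D) (hy : 0 ≤ D.F y) : 0 < 1 + dL lam f y := by
  obtain ⟨x, s, hx, hs, rfl⟩ := (mem_iff hS).1 hy
  by_contra hneg
  have hneg' : 1 + dL lam f (Y C.H x s) < 0 :=
    lt_of_le_of_ne (not_lt.1 hneg) (dL_ne hS hy)
  obtain ⟨S, hfar⟩ := f_zero_near hS x hx
  set T := max S s
  have hT : C.U x ≤ T := hs.trans (le_max_right _ _)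
  have h1 : 1 + dL lam f (Y C.H x T) = 1 := by
    have : dL lam f (Y C.H x T) = 0 := by
      unfold dL
      refine Finset.sum_eq_zero fun i _ => ?_
      rw [Vale.Agent.P366.pd_congr (hfar T (le_max_left _ _)) i, Vale.Agent.P366.pd_const, mul_zero]
    rw [this, add_zero]
  have hc : ContinuousOn (fun s => 1 + dL lam f (Y C.H x s)) (Icc s T) :=
    (dL_Y_contOn hS hx).mono fun r hr => hs.trans hr.1
  have hmem : (0 : ℝ) ∈ Icc (1 + dL lam f (Y C.H x s)) (1 + dL lam f (Y C.H x T)) :=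
    ⟨hneg'.le, by rw [h1]; norm_num⟩
  obtain ⟨r, hr, hr0⟩ := intermediate_value_Icc (le_max_right S s) hc hmem
  exact dL_ne hS (mem_Y hS hx (hs.trans hr.1)) hr0

theorem f_Y_hasDerivAt (hS : IsSlice C lam V f D) (hx : ‖x‖ = 1) (hs : C.U x ≤ s) :
    HasDerivAt (fun s => f (Y C.H x s) + s) (dL lam f (Y C.H x s) + 1) s := by
  have h1 : HasDerivAt (Y C.H x) x s := by
    have h2 : Y C.H x = fun s => Y C.H x 0 + s • x := by
      funext s
      ext i
      simp [Y_apply]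
    rw [h2]
    simpa using ((hasDerivAt_id s).smul_const x).const_add (Y C.H x 0)
  have h3 := (f_diff hS (mem_Y hS hx hs)).hasFDerivAt.comp_hasDerivAt s h1
  have h4 : fderiv ℝ f (Y C.H x s) x = dL lam f (Y C.H x s) := by
    rw [Vale.Agent.P366.fderiv_eq_sum_pd, dL_Y hS hx hs]
  rw [h4] at h3
  exact h3.add (hasDerivAt_id s)

theorem f_bdr_aux (hS : IsSlice C lam V f D) (hx : ‖x‖ = 1) :
    f (Y C.H x (C.U x)) = - C.U x ∧ D.F (Y C.H x (C.U x)) = 0 := by
  have h0 := posU' C hx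
  have hx0 := ne_zero_of_one hx
  have h1 := hS.bdr (C.U x • x) (smul_ne_zero h0.ne' hx0)
    (by rw [U_smul C hx0 h0, norm_smul_unit hx h0.le])
  rw [Y_eq C hx h0, U_smul C hx0 h0] at h1
  exact ⟨h1.2, h1.1⟩

theorem f_add_nonneg_Y (hS : IsSlice C lam V f D) (hx : ‖x‖ = 1) (hs : C.U x ≤ s) :
    0 ≤ f (Y C.H x s) + s := by
  have hmono : MonotoneOn (fun s => f (Y C.H x s) + s) (Ici (C.U x)) := by
    refine monotoneOn_of_deriv_nonneg (convex_Ici _) ?_ ?_ ?_
    · intro r hr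
      exact (f_Y_hasDerivAt hS hx hr).continuousAt.continuousWithinAt
    · intro r hr
      rw [interior_Ici] at hr
      exact (f_Y_hasDerivAt hS hx (le_of_lt hr)).differentiableAt.differentiableWithinAt
    · intro r hr
      rw [interior_Ici] at hr
      rw [(f_Y_hasDerivAt hS hx (le_of_lt hr)).deriv]
      have := dL_pos hS (mem_Y hS hx (le_of_lt hr))
      linarith
  have h := hmono (mem_Ici.2 le_rfl) hs hs
  simp only at h
  rw [(f_bdr_aux hS hx).1] at h
  linarith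

theorem f_bdr (hS : IsSlice C lam V f D) (hx : ‖x‖ = 1) :
    D.F (Y C.H x (C.U x)) = 0 ∧ f (Y C.H x (C.U x)) = - C.U x :=
  ⟨(f_bdr_aux hS hx).2, (f_bdr_aux hS hx).1⟩

theorem f_add_nonneg (hS : IsSlice C lam V f D) (hy : 0 ≤ D.F y) : 0 ≤ f y + lam y := by
  obtain ⟨x, s, hx, hs, rfl⟩ := (mem_iff hS).1 hy
  rw [lam_Y hS hx hs]
  exact f_add_nonneg_Y hS hx hs

/-- the hypersurface is part of the region -/
theorem mem_region (hS : IsSlice C lam V f D) (hy : 0 ≤ D.F y) :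
    pt (f y) y ∈ Region lam f D := by
  obtain ⟨x, s, hx, hs, rfl⟩ := (mem_iff hS).1 hy
  refine ⟨hy, ?_, le_refl _⟩
  rw [nul_pt, lam_Y hS hx hs]
  exact f_add_nonneg_Y hS hx hs

/-- null hypersurface and everything between: `(t, Y x s)` with `- s ≤ t ≤ f` -/
theorem mem_region' (hS : IsSlice C lam V f D) (hx : ‖x‖ = 1) (hs : C.U x ≤ s)
    (ht : - s ≤ t) (ht' : t ≤ f (Y C.H x s)) : pt t (Y C.H x s) ∈ Region lam f D := by
  refine ⟨mem_Y hS hx hs, ?_, ht'⟩
  rw [nul_pt, lam_Y hS hx hs]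
  linarith

theorem Y_zero_bdd (C : NullCone n) : ∃ G : ℝ, 0 ≤ G ∧ ∀ x : E n, ‖x‖ = 1 → ‖Y C.H x 0‖ ≤ G := by
  have hc : ContinuousOn (fun x => ‖Y C.H x 0‖) (sphere (0 : E n) 1) := by
    intro x hx
    have hx0 := ne_zero_of_one (show ‖x‖ = 1 by simpa using hx)
    have h : ContDiffAt ℝ ∞ (fun x : E n => Y C.H x 0) x := by
      have h1 : ContDiffAt ℝ ∞ (fun z : E n => (WithLp.toLp 2 fun i => pd i C.H z + 0 * z i : E n))
          x := by
        rw [contDiffAt_piLp]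
        intro i
        exact (((smH C).pd i) x hx0).add (contDiffAt_const.mul (Sm.coord i x hx0))
      exact h1
    exact h.continuousAt.norm.continuousWithinAt
  obtain ⟨G, hG⟩ := (isCompact_sphere (0 : E n) 1).bddAbove_image hc
  exact ⟨max G 0, le_max_right _ _, fun x hx =>
    (hG ⟨x, by simpa using hx, rfl⟩).trans (le_max_left _ _)⟩

theorem U_bdd (C : NullCone n) : ∃ L0 : ℝ, ∀ x : E n, ‖x‖ = 1 → C.U x ≤ L0 := by
  obtain ⟨L0, hL0⟩ := (isCompact_sphere (0 : E n) 1).bddAbove_image (smU C).contOn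
  exact ⟨L0, fun x hx => hL0 ⟨x, by simpa using hx, rfl⟩⟩

theorem f_zero_far (hS : IsSlice C lam V f D) :
    ∃ L0 : ℝ, ∀ (x : E n) (L : ℝ), ‖x‖ = 1 → L0 ≤ L → C.U x < L ∧ f (Y C.H x L) = 0 := by
  obtain ⟨R, hR⟩ := hS.cpt
  obtain ⟨G, hG0, hG⟩ := Y_zero_bdd C
  obtain ⟨L1, hL1⟩ := U_bdd C
  refine ⟨max (L1 + 1) (R + G + 1), fun x L hx hL => ⟨?_, ?_⟩⟩
  · have h1 := hL1 x hx
    have h2 := (le_max_left _ _).trans hL
    linarith
  · have h1 := hG x hx
    have h2 := (le_max_right _ _).trans hL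
    have h3 := norm_Y_ge C.H hx L
    exact hR _ (by show R < ‖Y C.H x L‖; linarith)

end Vale.Agent.P366.KSN
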