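import Vale.Agent.P366.H222.N.X7
import Vale.Agent.P366.H353.N.Main
import Vale.Agent.P366.H375.N.X2g
import Vale.Agent.P366.H208.N.X3d
import Vale.Agent.P366.H707.N.X5
import Vale.Agent.P366.H707.N.X6b
import Vale.Agent.P366.H296.N.X8

/-! Kerr-Schild exteriors, all dimensions: the Penrose inequality. -/

open MeasureTheory Metric Filter Topology Set
open scoped ContDiff ENNReal

noncomputable section
namespace Vale.Agent.P366.KSN

open Vale.Agent.P366 (pd E)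
open Vale.Agent.P366.H353.N
open Vale.Agent.P366.Kerr (NullCone IsSlice Region Psi pt sp nul ksG indG indK DECat)

variable {n : ℕ} {C : NullCone n} {lam f : E n → ℝ} {V : E (n + 1) → ℝ}
  {D : Stmt.Exterior n}

theorem final_mono [Fact (3 ≤ n)] (hS : IsSlice C lam V f D)
    (hV : ∀ p ∈ Region lam f D, ContDiffAt ℝ ∞ V p ∧ DECat (ksG lam V) (nul lam) p)
    (hAF : D.IsAF) (hT : D.Trapped) {m : ℝ} {P : Fin n → ℝ} (hm : D.IsEnergy m)
    (hP : D.IsMomentum P)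
    (h4s : ∀ x : E n, ‖x‖ = 1 → ∀ s s' : ℝ, C.U x ≤ s → s ≤ s' →
      V (pt (-s) (Y C.H x s)) * sg C.H s x ≤ V (pt (-s') (Y C.H x s')) * sg C.H s' x)
    (h4v : ∃ L0 : ℝ, ∀ L, L0 ≤ L → SI (fun x => V (pt (-L) (Y C.H x L)) * sg C.H L x) ≤
      SI (fun x => V (pt 0 (Y C.H x L)) * sg C.H L x))
    (hmono : ∃ L0 : ℝ, ∀ s s', L0 ≤ s → s ≤ s' → SI (fun x => V (pt 0 (Y C.H x s)) * sg C.H s x) ≤
      SI (fun x => V (pt 0 (Y C.H x s')) * sg C.H s' x))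
    (hp0 : ∀ {c : ℝ}, Tendsto (fun L => SI (fun x => V (pt 0 (Y C.H x L)) * sg C.H L x)) atTop (𝓝 c) →
      ∀ i, Tendsto (fun L => SI (fun x => V (pt 0 (Y C.H x L)) * sg C.H L x * x i)) atTop (𝓝 0)) :
    D.Amin ≠ ⊤ ∧ P = 0 ∧ 0 < m ∧
      (D.Amin.toReal / Stmt.omega n) ^ (((n : ℝ) - 2) / ((n : ℝ) - 1)) / 2 ≤
        √(m ^ 2 - ∑ i, P i ^ 2) := by
  have h3 := Fact.out (p := 3 ≤ n)
  have hn : (3 : ℝ) ≤ (n : ℝ) := by exact_mod_cast h3
  have hV1 : ∀ p ∈ Region lam f D, ContDiffAt ℝ ∞ V p := fun p hp => (hV p hp).1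
  have h5 := energy_lim_mono hS hV hAF hm hmono
  have hP0 : P = 0 := by
    funext i
    have h := momentum_eq hS hV hAF hm hP i (hp0 h5 i)
    have hom : 0 < om n := om_pos
    have h1 : 0 < 2 * ((n : ℝ) - 1) * om n := by
      have : 0 < (n : ℝ) - 1 := by linarith
      positivity
    have h2 := mul_eq_zero.1 h.symm
    rcases h2 with h2 | h2
    · exact absurd h2 h1.ne'
    · exact h2
  have hPhi := chain hS hV1 (fun x hx => trapped_thl hS hV1 hT hx) (int_thl hS) h4s h4v h5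
  obtain ⟨h1, h2, h3⟩ := final_of (main C.toDat) (area_le hS hV1) hPhi
  refine ⟨h1, hP0, h2, ?_⟩
  have e1 : √(m ^ 2 - ∑ i, P i ^ 2) = m := by
    rw [hP0]
    simp [Real.sqrt_sq h2.le]
  rw [e1]
  exact h3

theorem final [Fact (3 ≤ n)] (hS : IsSlice C lam V f D)
    (hV : ∀ p ∈ Region lam f D, ContDiffAt ℝ ∞ V p ∧ DECat (ksG lam V) (nul lam) p)
    (hAF : D.IsAF) (hT : D.Trapped) {m : ℝ} {P : Fin n → ℝ} (hm : D.IsEnergy m)
    (hP : D.IsMomentum P) :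
    D.Amin ≠ ⊤ ∧ P = 0 ∧ 0 < m ∧
      (D.Amin.toReal / Stmt.omega n) ^ (((n : ℝ) - 2) / ((n : ℝ) - 1)) / 2 ≤
        √(m ^ 2 - ∑ i, P i ^ 2) :=
  final_mono hS hV hAF hT hm hP (fun x hx s s' h1 h2 => mono_s hS hV hx h1 h2) (mono_v hS hV)
    (mono_zero hS hV) (fun hc i => p_zero hS hV hc i)

end Vale.Agent.P366.KSN
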