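import Vale.Agent.P366.H222.N.Int

/-! Geometry of the rays, all dimensions, part 1. -/

open MeasureTheory Metric Filter Topology Set
open scoped ContDiff ENNReal

noncomputable section
namespace Vale.Agent.P366.KSN

open Vale.Agent.P366 (pd E)
open Vale.Agent.P366.H353.N
open Vale.Agent.P366.Kerr (NullCone IsSlice Region Psi pt sp nul ksG indG indK DECat)

variable {n : ℕ} {C : NullCone n} {lam f : E n → ℝ} {V : E (n + 1) → ℝ} {D : Stmt.Exterior n}
  {x y z : E n} {s t : ℝ}

/-! ### the structure `NullCone` -/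

theorem smH (C : NullCone n) : Sm C.H := fun x hx => (C.smooth x hx).1

theorem smU (C : NullCone n) : Sm C.U := fun x hx => (C.smooth x hx).2

theorem homH (C : NullCone n) : Hom 1 C.H := fun x hx r hr => by
  rw [(C.hom x hx r hr).1, zpow_one]

theorem homU (C : NullCone n) : Hom 0 C.U := fun x hx r hr => by
  rw [(C.hom x hx r hr).2, zpow_zero, one_mul]

theorem spd2_eq {g : E n → ℝ} (hg : ContDiffAt ℝ ∞ g y) (i j : Fin n) :
    Stmt.pd i (Stmt.pd j g) y = hs g i j y := by
  have hev : ∀ᶠ z in 𝓝 y, ContDiffAt ℝ 1 g z :=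
    (hg.of_le (by norm_cast)).eventually (by simp)
  have he : Stmt.pd j g =ᶠ[𝓝 y] Vale.Agent.P366.pd j g := by
    filter_upwards [hev] with z hz
    exact Vale.Agent.P366.Bridge.pd_eq (hz.differentiableAt (by simp)) j
  have h1 : Stmt.pd i (Stmt.pd j g) y = Stmt.pd i (Vale.Agent.P366.pd j g) y := by
    show lineDeriv ℝ _ y _ = lineDeriv ℝ _ y _
    exact he.lineDeriv_eq
  have h2 : DifferentiableAt ℝ (Vale.Agent.P366.pd j g) y := by
    have h3 : ContDiffAt ℝ ∞ (fderiv ℝ g) y := hg.fderiv_right (by simp)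
    exact (h3.clm_apply (contDiffAt_const (c := EuclideanSpace.single j (1 : ℝ)))).differentiableAt
      (by simp)
  rw [h1, Vale.Agent.P366.Bridge.pd_eq h2 i]
  rfl

theorem posC (C : NullCone n) (hx : ‖x‖ = 1) (v : Fin n → ℝ) (hv : ∑ i, x i * v i = 0)
    (h0 : v ≠ 0) : 0 < qf (fun i j => hs C.H i j x) v v + C.U x * ∑ i, v i ^ 2 := by
  have h := C.reg x hx v hv h0
  have hx0 := ne_zero_of_one hx
  unfold qf
  simpa only [spd2_eq (smH C x hx0)] using h

/-! ### algebra of `Ws` -/

theorem kd_comm (i j : Fin n) : kd i j = kd j i := by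
  unfold kd
  simp only [eq_comm]

theorem sum_kd_mul (i : Fin n) (v : Fin n → ℝ) : ∑ j, kd i j * v j = v i := by simp [kd]

theorem sum_xx (hx : ‖x‖ = 1) : ∑ i, x i * x i = 1 := by
  have h := EuclideanSpace.norm_sq_eq x
  rw [hx] at h
  simp only [Real.norm_eq_abs, sq_abs] at h
  rw [show (1 : ℝ) = 1 ^ 2 by norm_num, h]
  exact Finset.sum_congr rfl fun i _ => by ring

theorem hs_H_x (C : NullCone n) (hx : ‖x‖ = 1) (i : Fin n) : ∑ j, hs C.H i j x * x j = 0 := by
  have hx0 := ne_zero_of_one hx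
  have h := ((homH C).pd (smH C) i).euler ((smH C).pd i) hx0
  push_cast at h
  simp only [sub_self, Int.cast_zero, zero_mul] at h
  rw [← h]
  refine Finset.sum_congr rfl fun j _ => ?_
  rw [hs_symm (smH C) hx0 i j, mul_comm]
  rfl

theorem pr_x (hx : ‖x‖ = 1) (i : Fin n) : ∑ j, pr x i j * x j = 0 := by
  unfold pr
  simp only [sub_mul, Finset.sum_sub_distrib, sum_kd_mul, mul_assoc, ← Finset.mul_sum, sum_xx hx]
  ring

theorem pr_symm (x : Fin n → ℝ) (i j : Fin n) : pr x i j = pr x j i := by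
  unfold pr
  rw [kd_comm, mul_comm (x i)]

theorem Ws_symm (C : NullCone n) (hx : ‖x‖ = 1) (i j : Fin n) :
    Ws C.H s x i j = Ws C.H s x j i := by
  unfold Ws
  rw [hs_symm (smH C) (ne_zero_of_one hx) i j, pr_symm]

theorem Ws_x (C : NullCone n) (hx : ‖x‖ = 1) (i : Fin n) : ∑ j, Ws C.H s x i j * x j = 0 := by
  unfold Ws
  simp only [add_mul, Finset.sum_add_distrib, mul_assoc, ← Finset.mul_sum, pr_x hx i,
    hs_H_x C hx i]
  ring

theorem Ws_x' (C : NullCone n) (hx : ‖x‖ = 1) (j : Fin n) : ∑ i, x i * Ws C.H s x i j = 0 := by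
  rw [← Ws_x (s := s) C hx j]
  exact Finset.sum_congr rfl fun i _ => by rw [Ws_symm C hx i j, mul_comm]

theorem Ms_symm (C : NullCone n) (hx : ‖x‖ = 1) : (Ms C.H s x).transpose = Ms C.H s x := by
  ext i j
  simp only [Ms, Matrix.transpose_apply, Matrix.of_apply]
  rw [Ws_symm C hx j i, mul_comm (x j)]

theorem qf_Ws (C : NullCone n) (hx : ‖x‖ = 1) (v : Fin n → ℝ) (hv : ∑ i, x i * v i = 0) :
    qf (Ws C.H s x) v v = qf (fun i j => hs C.H i j x) v v + s * ∑ i, v i ^ 2 := by
  unfold qf Ws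
  have h1 : ∀ i, ∑ j, pr x i j * v j = v i := by
    intro i
    unfold pr
    simp only [sub_mul, Finset.sum_sub_distrib, sum_kd_mul, mul_assoc, ← Finset.mul_sum, hv]
    ring
  have h2 : ∀ i j, (hs C.H i j x + s * pr x i j) * v i * v j =
      hs C.H i j x * v i * v j + s * (v i * (pr x i j * v j)) := by
    intro i j
    ring
  simp only [h2, Finset.sum_add_distrib, ← Finset.mul_sum, h1, sq]

/-- `vᵀ M v = uᵀ W u + (x · v)²` with the tangential part `u` of `v` -/
theorem qf_Ms (C : NullCone n) (hx : ‖x‖ = 1) (v : Fin n → ℝ) :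
    ∑ i, ∑ j, Ms C.H s x i j * v i * v j =
      qf (Ws C.H s x) (fun i => v i - (∑ j, x j * v j) * x i) (fun i => v i - (∑ j, x j * v j) * x i)
        + (∑ j, x j * v j) ^ 2 := by
  set a := ∑ j, x j * v j with ha
  have h1 : ∀ i, ∑ j, Ws C.H s x i j * (v j - a * x j) = ∑ j, Ws C.H s x i j * v j := by
    intro i
    simp only [mul_sub, Finset.sum_sub_distrib]
    have : ∑ j, Ws C.H s x i j * (a * x j) = a * ∑ j, Ws C.H s x i j * x j := by
      rw [Finset.mul_sum]
      exact Finset.sum_congr rfl fun j _ => by ring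
    rw [this, Ws_x C hx i]
    ring
  have h2 : qf (Ws C.H s x) (fun i => v i - a * x i) (fun i => v i - a * x i) =
      ∑ i, (v i - a * x i) * ∑ j, Ws C.H s x i j * v j := by
    unfold qf
    refine Finset.sum_congr rfl fun i _ => ?_
    rw [← h1 i, Finset.mul_sum]
    exact Finset.sum_congr rfl fun j _ => by ring
  have h3 : ∑ i, x i * ∑ j, Ws C.H s x i j * v j = 0 := by
    simp only [Finset.mul_sum]
    rw [Finset.sum_comm]
    refine Finset.sum_eq_zero fun j _ => ?_
    have : ∑ i, x i * (Ws C.H s x i j * v j) = (∑ i, x i * Ws C.H s x i j) * v j := by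
      rw [Finset.sum_mul]
      exact Finset.sum_congr rfl fun i _ => by ring
    rw [this, Ws_x' C hx j, zero_mul]
  have h4 : ∑ i, (v i - a * x i) * ∑ j, Ws C.H s x i j * v j =
      ∑ i, v i * ∑ j, Ws C.H s x i j * v j := by
    simp only [sub_mul, Finset.sum_sub_distrib, mul_assoc, ← Finset.mul_sum, h3]
    ring
  rw [h2, h4]
  have h5 : ∀ i j, Ms C.H s x i j * v i * v j = v i * (Ws C.H s x i j * v j) +
      (x i * v i) * (x j * v j) := by
    intro i j
    simp only [Ms, Matrix.of_apply]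
    ring
  simp only [h5, Finset.sum_add_distrib, ← Finset.mul_sum, ← ha, ← Finset.sum_mul]
  ring

theorem Ms_pos (C : NullCone n) (hx : ‖x‖ = 1) (hs : C.U x ≤ s) (v : Fin n → ℝ) (h0 : v ≠ 0) :
    0 < ∑ i, ∑ j, Ms C.H s x i j * v i * v j := by
  rw [qf_Ms C hx v]
  set a := ∑ j, x j * v j with ha
  have hu : ∑ i, x i * (v i - a * x i) = 0 := by
    have : ∀ i, x i * (v i - a * x i) = x i * v i - a * (x i * x i) := fun i => by ring
    simp only [this, Finset.sum_sub_distrib, ← Finset.mul_sum, sum_xx hx, ← ha]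
    ring
  by_cases hu0 : (fun i => v i - a * x i) = 0
  · have hne : a ≠ 0 := by
      intro h
      apply h0
      funext i
      have := congrFun hu0 i
      simp only [h, zero_mul, sub_zero] at this
      exact this
    rw [hu0]
    have : qf (Ws C.H s x) 0 0 = 0 := by simp [qf]
    rw [this, zero_add]
    positivity
  · have h1 := posC C hx _ hu hu0
    have h2 : 0 ≤ ∑ i, (v i - a * x i) ^ 2 := Finset.sum_nonneg fun i _ => sq_nonneg _
    rw [qf_Ws C hx _ hu]
    nlinarith [mul_nonneg (sub_nonneg.2 hs) h2, sq_nonneg a]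

theorem Ms_posDef (C : NullCone n) (hx : ‖x‖ = 1) (hs : C.U x ≤ s) : (Ms C.H s x).PosDef := by
  refine Matrix.PosDef.of_dotProduct_mulVec_pos ?_ ?_
  · rw [Matrix.IsHermitian, Matrix.conjTranspose_eq_transpose_of_trivial, Ms_symm C hx]
  · intro v hv
    have h := Ms_pos C hx hs v hv
    have e : star v ⬝ᵥ (Ms C.H s x).mulVec v = ∑ i, ∑ j, Ms C.H s x i j * v i * v j := by
      simp only [star_trivial, dotProduct, Matrix.mulVec, Finset.mul_sum]
      exact Finset.sum_congr rfl fun i _ => Finset.sum_congr rfl fun j _ => by ring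
    rw [e]
    exact h

theorem dts_pos (C : NullCone n) (hx : ‖x‖ = 1) (hs : C.U x ≤ s) : 0 < dts C.H s x :=
  (Ms_posDef C hx hs).det_pos

theorem Ms_mul_x (C : NullCone n) (hx : ‖x‖ = 1) (i : Fin n) :
    ∑ j, Ms C.H s x i j * x j = x i := by
  have h : ∀ j, Ms C.H s x i j * x j = Ws C.H s x i j * x j + x i * (x j * x j) := by
    intro j
    simp only [Ms, Matrix.of_apply]
    ring
  simp only [h, Finset.sum_add_distrib, Ws_x C hx i, ← Finset.mul_sum, sum_xx hx]
  ring

end Vale.Agent.P366.KSN
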